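import Vale.Agent.P168.Upper.Factors
import Vale.Agent.P168.UpperCore

/-!
The recursion `collapse` as a nested system, and the sign of the combination of the increments:
removal of `a` and of the damping `b → r b`.
-/

namespace Vale.Agent.P168.Up

open MeasureTheory Finset Function

variable (t : Trial)

/-- The exponents of a trial, followed by the exponent `1` of the spins. -/
noncomputable def expOf (l : ℕ) : ℝ :=
  if h : 1 ≤ l ∧ l ≤ t.r then t.m ⟨l - 1, by omega⟩ else 1

lemma expOf_succ (p : Fin t.r) : expOf t ((p : ℕ) + 1) = t.m p := by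
  have := p.isLt
  rw [expOf, dif_pos ⟨by omega, by omega⟩]
  exact congrArg t.m (Fin.ext (by show (p : ℕ) + 1 - 1 = p; omega))

lemma expOf_pos (l : ℕ) : 0 < expOf t l := by
  unfold expOf
  split_ifs
  exacts [(t.m_mem _).1, one_pos]

lemma expOf_top : expOf t (t.r + 1) = 1 := dif_neg (by omega)

section Root

variable {Ω J : Type} [MeasurableSpace Ω] [Fintype J] {N : ℕ}

/-- A system whose potential reads messages and spins from its steps computes `lpot`. -/
lemma lpot_eq_u (S : Sys Ω) (hR : S.R = t.r + 1) (hx : S.x = expOf t) (ψ : Ω → J → ℝ)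
    (α : Ω → Fin N → Bool)
    (hmp : MeasurePreserving (fun e => (ψ e, α e)) S.μ
      ((unifLaw J).prod (finLaw (Fin N → Bool))))
    {G : Pot t J N} {B : ℝ} (hG : RegPot t G B)
    (hH : ∀ ω, S.H ω = G (fun p => ψ (ω ((p : ℕ) + 1))) (α (ω (t.r + 1)))) (ω : ℕ → Ω) :
    lpot t G = S.u 0 ω := by
  classical
  have hprob : IsProbabilityMeasure (finLaw (Fin N → Bool)) := isProbabilityMeasure_finLaw _
  have hψ : MeasurePreserving ψ S.μ (unifLaw J) := measurePreserving_fst.comp hmp
  have hα : MeasurePreserving α S.μ (finLaw (Fin N → Bool)) := measurePreserving_snd.comp hmp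
  let patch : (ℕ → Ω) → ∀ n j : ℕ, j + n = t.r → (Fin n → J → ℝ) → Fin t.r → J → ℝ :=
    fun ω n j h w i => if hi : (i : ℕ) < j then ψ (ω ((i : ℕ) + 1))
      else w ⟨(i : ℕ) - j, by omega⟩
  have hpm : ∀ ω n j h, Measurable (patch ω n j h) := fun ω n j h =>
    measurable_pi_lambda _ fun i => by
      simp only [patch]
      split_ifs
      exacts [measurable_const, measurable_pi_apply _]
  suffices key : ∀ n j (h : j + n = t.r) (ω : ℕ → Ω),
      collapse n (fun p : Fin n => expOf t (j + 1 + p))
        (fun w => avg fun σ => Real.exp (G (patch ω n j h w) σ)) = Real.exp (S.u j ω) by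
    have h := key t.r 0 (zero_add _) ω
    have e1 : (fun p : Fin t.r => expOf t (0 + 1 + p)) = t.m := funext fun p => by
      rw [zero_add, add_comm, expOf_succ]
    have e2 : ∀ w : Fin t.r → J → ℝ, patch ω t.r 0 (zero_add _) w = w := fun w => by
      funext i; simp [patch]
    simp only [e1, e2] at h
    rw [lpot, h, Real.log_exp]
  intro n
  induction n with
  | zero =>
    intro j h ω
    obtain rfl : j = t.r := by omega
    have hu : ∀ e, S.u (t.r + 1) (update ω (t.r + 1) e) =
        G (fun p => ψ (ω ((p : ℕ) + 1))) (α e) := fun e => by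
      rw [show t.r + 1 = S.R from hR.symm, Sys.u_top, hH, ← hR, update_self]
      congr 1
      funext p
      rw [update_of_ne (by have := p.isLt; omega)]
    rw [Sys.u_step (show t.r < S.R by omega), hx, expOf_top]
    simp only [inv_one, one_mul, hu]
    have hint : ∫ e, Real.exp (G (fun p => ψ (ω ((p : ℕ) + 1))) (α e)) ∂S.μ =
        avg fun σ => Real.exp (G (fun p => ψ (ω ((p : ℕ) + 1))) σ) := by
      rw [← integral_finLaw, ← hα.map_eq, integral_map hα.measurable.aemeasurable
        (measurable_of_finite _).aestronglyMeasurable]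
    rw [hint, Real.exp_log ((Real.exp_pos _).trans_le (avg_exp_mem (hG.2 _)).1)]
    show avg _ = _
    congr 1
    funext σ
    congr 2
    funext i
    simp [patch, i.isLt]
  | succ n ih =>
    intro j h ω
    set m : Fin n → ℝ := fun p => expOf t (j + 1 + (p.succ : Fin (n + 1)))
    set F : (J → ℝ) → ℝ := fun f => collapse n m fun w => avg fun σ =>
      Real.exp (G (patch ω (n + 1) j h (Fin.cons f w)) σ) with hF
    have hYm : Measurable fun z : (J → ℝ) × (Fin n → J → ℝ) => avg fun σ =>
        Real.exp (G (patch ω (n + 1) j h (Fin.cons z.1 z.2)) σ) :=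
      measurable_avg fun σ => ((hG.1 σ).comp ((hpm ω (n + 1) j h).comp measurable_cons)).exp
    have hFu : ∀ e, F (ψ e) = Real.exp (S.u (j + 1) (update ω (j + 1) e)) := fun e => by
      rw [← ih (j + 1) (by omega) (update ω (j + 1) e), hF]
      have e1 : m = fun p : Fin n => expOf t (j + 1 + 1 + p) := funext fun p => by
        simp only [m, Fin.val_succ]; congr 1; omega
      rw [← e1]
      beta_reduce
      congr 1
      funext w
      congr 1
      funext σ
      congr 2
      funext i
      rcases lt_trichotomy (i : ℕ) j with hi | hi | hi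
      · simp [patch, hi, show (i : ℕ) < j + 1 by omega, update_of_ne (show (i : ℕ) + 1 ≠ j + 1 by omega)]
      · simp [patch, hi]
      · simp only [patch, dif_neg (show ¬ (i : ℕ) < j by omega),
          dif_neg (show ¬ (i : ℕ) < j + 1 by omega)]
        rw [show (⟨(i : ℕ) - j, by omega⟩ : Fin (n + 1)) = (⟨(i : ℕ) - (j + 1), by omega⟩ : Fin n).succ
          from Fin.ext (by simp; omega), Fin.cons_succ]
    have hmem : ∀ f, F f ∈ Set.Icc (Real.exp (-B)) (Real.exp B) := fun f =>
      collapse_mem (fun p => expOf_pos t _)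
        (measurable_avg fun σ => ((hG.1 σ).comp ((hpm ω (n + 1) j h).comp
          (measurable_cons.comp (measurable_const.prodMk measurable_id)))).exp)
        (Real.exp_pos _) fun w => avg_exp_mem (hG.2 _)
    have hpos : 0 < expOf t (j + 1) := expOf_pos t _
    have hFm : Measurable fun f => F f ^ expOf t (j + 1) :=
      (measurable_collapse m (Y := fun f w => avg fun σ =>
        Real.exp (G (patch ω (n + 1) j h (Fin.cons f w)) σ)) hYm).pow_const _
    have hint : ∫ e, Real.exp (expOf t (j + 1) * S.u (j + 1) (update ω (j + 1) e)) ∂S.μ =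
        ∫ f, F f ^ expOf t (j + 1) ∂unifLaw J := by
      rw [← hψ.map_eq, integral_map hψ.measurable.aemeasurable hFm.aestronglyMeasurable]
      refine integral_congr_ae (.of_forall fun e => ?_)
      simp only [hFu, ← Real.exp_mul, mul_comm]
    have hI : 0 < ∫ f, F f ^ expOf t (j + 1) ∂unifLaw J := by
      have hlo := integral_mono (integrable_const (Real.exp (-B) ^ expOf t (j + 1)))
        (Integrable.of_bound (μ := unifLaw J) hFm.aestronglyMeasurable
          (Real.exp B ^ expOf t (j + 1)) (.of_forall fun f => by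
            rw [Real.norm_eq_abs, abs_of_nonneg
              (Real.rpow_nonneg ((Real.exp_pos _).le.trans (hmem f).1) _)]
            exact Real.rpow_le_rpow ((Real.exp_pos _).le.trans (hmem f).1) (hmem f).2 hpos.le))
        fun f => Real.rpow_le_rpow (Real.exp_pos _).le (hmem f).1 hpos.le
      refine lt_of_lt_of_le (Real.rpow_pos_of_pos (Real.exp_pos (-B)) (expOf t (j + 1))) ?_
      simpa using hlo
    rw [Sys.u_step (show j < S.R by omega), hx, hint]
    show (∫ f, F f ^ expOf t (j + 1 + ((0 : Fin (n + 1)) : ℕ)) ∂unifLaw J) ^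
      (1 / expOf t (j + 1 + ((0 : Fin (n + 1)) : ℕ))) = _
    rw [Fin.val_zero, add_zero, Real.rpow_def_of_pos hI, one_div, mul_comm]

end Root

/-! ### The systems -/

variable {J : Type} [Fintype J] {N K : ℕ}

/-- Messages and spins as the steps of a system. -/
noncomputable def baseSys (G : Pot t J N) : Sys ((J → ℝ) × (Fin N → Bool)) where
  R := t.r + 1
  x := expOf t
  H ω := G (fun p => (ω ((p : ℕ) + 1)).1) (ω (t.r + 1)).2
  μ := (unifLaw J).prod (finLaw (Fin N → Bool))

/-- One message as a system. -/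
noncomputable def msgSys : Sys ℝ where
  R := t.r + 1
  x := expOf t
  H _ := 0
  μ := unit01

/-- The message as an observable. -/
def msgObs (θ : ℝ) (ω : ℕ → ℝ) : ℝ := t.x (Fin.cons θ fun p => ω ((p : ℕ) + 1))

lemma expOf_mono {l : ℕ} (h1 : 1 ≤ l) (hl : l < t.r + 1) : expOf t l ≤ expOf t (l + 1) := by
  rw [expOf, dif_pos ⟨h1, by omega⟩, expOf]
  split_ifs with h
  · exact t.m_mono.monotone (Fin.le_iff_val_le_val.2 (by show l - 1 ≤ l + 1 - 1; omega))
  · exact (t.m_mem _).2.le

lemma baseSys_good {G : Pot t J N} {B : ℝ} (hG : RegPot t G B) : (baseSys t G).Good where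
  prob := by
    have := isProbabilityMeasure_finLaw (Fin N → Bool)
    exact inferInstanceAs (IsProbabilityMeasure ((unifLaw J).prod (finLaw (Fin N → Bool))))
  x_pos l _ _ := expOf_pos t l
  x_mono _ h1 h2 := expOf_mono t h1 h2
  x_last := expOf_top t
  R_pos := Nat.succ_pos _
  H_bdd := by
    refine ⟨?_, B, fun ω => hG.2 _ _⟩
    have h : Measurable fun z : (Fin t.r → J → ℝ) × (Fin N → Bool) => G z.1 z.2 :=
      measurable_from_prod_countable_left fun σ => hG.1 σ
    exact h.comp ((measurable_pi_lambda _ fun p =>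
      measurable_fst.comp (measurable_pi_apply _)).prodMk
        (measurable_snd.comp (measurable_pi_apply _)))
  H_dep ω ω' h := by
    have e : ∀ p : Fin t.r, ω ((p : ℕ) + 1) = ω' ((p : ℕ) + 1) := fun p =>
      h _ (by omega) (by have := p.isLt; show (p : ℕ) + 1 ≤ t.r + 1; omega)
    simp only [baseSys, e, h (t.r + 1) (by omega) le_rfl]

lemma msgSys_good : (msgSys t).Good where
  prob := inferInstanceAs (IsProbabilityMeasure unit01)
  x_pos l _ _ := expOf_pos t l
  x_mono _ h1 h2 := expOf_mono t h1 h2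
  x_last := expOf_top t
  R_pos := Nat.succ_pos _
  H_bdd := bdd_const 0
  H_dep := fun _ _ _ => rfl

lemma lpot_eq_base {G : Pot t J N} {B : ℝ} (hG : RegPot t G B)
    (ω : ℕ → (J → ℝ) × (Fin N → Bool)) : lpot t G = (baseSys t G).u 0 ω :=
  lpot_eq_u t (baseSys t G) rfl rfl Prod.fst Prod.snd (MeasurePreserving.id _) hG (fun _ => rfl) ω

lemma mp_msgs :
    MeasurePreserving (fun e : Fin K → ℝ => (e, (default : Fin 0 → Bool)))
      (unifLaw (Fin K)) ((unifLaw (Fin K)).prod (finLaw (Fin 0 → Bool))) := by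
  have := isProbabilityMeasure_finLaw (Fin 0 → Bool)
  have hm : Measurable fun e : Fin K → ℝ => (e, (default : Fin 0 → Bool)) :=
    measurable_id.prodMk measurable_const
  refine ⟨hm, (Measure.prod_eq fun s u hs hu => ?_).symm⟩
  rw [Measure.map_apply hm (hs.prod hu)]
  rcases u.eq_empty_or_nonempty with h | ⟨a, ha⟩
  · subst h; simp
  · obtain rfl : u = Set.univ := Set.eq_univ_of_forall fun b => Subsingleton.elim a b ▸ ha
    simp [Set.preimage]

lemma mp_join :
    MeasurePreserving
      (fun e : ((J → ℝ) × (Fin N → Bool)) × (Fin K → ℝ) => (Sum.elim e.1.1 e.2, e.1.2))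
      (((unifLaw J).prod (finLaw (Fin N → Bool))).prod (unifLaw (Fin K)))
      ((unifLaw (J ⊕ Fin K)).prod (finLaw (Fin N → Bool))) := by
  have := isProbabilityMeasure_finLaw (Fin N → Bool)
  have h1 := measurePreserving_prodAssoc (unifLaw J) (finLaw (Fin N → Bool)) (unifLaw (Fin K))
  have h2 := (MeasurePreserving.id (unifLaw J)).prod
    (Measure.measurePreserving_swap (μ := finLaw (Fin N → Bool)) (ν := unifLaw (Fin K)))
  have h3 := (measurePreserving_prodAssoc (unifLaw J) (unifLaw (Fin K))
    (finLaw (Fin N → Bool))).symm _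
  have h4 := (measurePreserving_sumPiEquivProdPi_symm
    (fun _ : J ⊕ Fin K => unit01)).prod (MeasurePreserving.id (finLaw (Fin N → Bool)))
  have h := h4.comp (h3.comp (h2.comp h1))
  refine (congrArg (fun f => MeasurePreserving f _ _) ?_).mp h
  funext e
  refine Prod.ext (funext fun x => ?_) rfl
  cases x <;> rfl

lemma lpot_eq_V {G : Pot t (Fin K) 0} {B : ℝ} (hG : RegPot t G B) (ω : ℕ → Fin K → ℝ) :
    lpot t G = (((msgSys t).copies (Fin K)).add
      fun v => G (fun p => v ((p : ℕ) + 1)) default).u 0 ω :=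
  lpot_eq_u t _ rfl rfl id (fun _ => default) mp_msgs hG
    (fun v => by
      show (∑ _s : Fin K, (0 : ℝ)) + _ = _
      rw [sum_const_zero, zero_add]
      rfl) ω

lemma msgs_u_zero (ω : ℕ → Fin K → ℝ) : ((msgSys t).copies (Fin K)).u 0 ω = 0 := by
  rw [← lpot_eq_u t ((msgSys t).copies (Fin K)) rfl rfl id (fun _ => default) mp_msgs
    (G := fun _ _ => 0) (B := 0) ⟨fun _ => measurable_const, fun _ _ => by simp⟩
    (fun v => by show (∑ _s : Fin K, (0 : ℝ)) = 0; simp) ω, lpot_zero]

lemma lpot_eq_join {G : Pot t J N} (V : Pot t (J ⊕ Fin K) N) {B : ℝ}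
    (hG : RegPot t (fun w σ => G (fun q j => w q (Sum.inl j)) σ + V w σ) B)
    (ω : ℕ → ((J → ℝ) × (Fin N → Bool)) × (Fin K → ℝ)) :
    lpot t (fun w σ => G (fun q j => w q (Sum.inl j)) σ + V w σ) =
      (((baseSys t G).prod ((msgSys t).copies (Fin K))).add fun v =>
        V (fun p => Sum.elim (v ((p : ℕ) + 1)).1.1 (v ((p : ℕ) + 1)).2)
          (v (t.r + 1)).1.2).u 0 ω :=
  lpot_eq_u t _ rfl rfl (fun e => Sum.elim e.1.1 e.2) (fun e => e.1.2) mp_join hG
    (fun v => by
      show G _ _ + (∑ _s : Fin K, (0 : ℝ)) + _ = _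
      rw [sum_const_zero, add_zero]
      rfl) ω

lemma join_u_base {G : Pot t J N} {B : ℝ} (hG : RegPot t G B)
    (ω : ℕ → ((J → ℝ) × (Fin N → Bool)) × (Fin K → ℝ)) :
    ((baseSys t G).prod ((msgSys t).copies (Fin K))).u 0 ω = lpot t G := by
  rw [Sys.prod_u (baseSys_good t hG) (Sys.copies_good (msgSys_good t) _) rfl rfl, msgs_u_zero,
    add_zero, ← lpot_eq_base t hG]

/-- A cavity factor with `θ = 0` changes nothing. -/
lemma lpot_addCav_nullP {G : Pot t J N} {B : ℝ} (hG : RegPot t G B) (l : Fin K) (v : Fin N)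
    (ω0 : Fin K → ℝ) : lpot t (addCav t G (nullP : Param K) l v ω0) = lpot t G := by
  set ω : ℕ → ((J → ℝ) × (Fin N → Bool)) × (Fin K → ℝ) :=
    fun _ => ((fun _ => 0, fun _ => true), fun _ => 0)
  refine Eq.trans ?_ (join_u_base t hG ω)
  refine lpot_eq_u t _ rfl rfl (fun e => Sum.elim e.1.1 e.2) (fun e => e.1.2) mp_join
    (hG.addCav nullP l v ω0) (fun u => ?_) ω
  show G _ _ + (∑ _s : Fin K, (0 : ℝ)) = _
  rw [sum_const_zero]
  simp only [addCav, log_gFac_nullP]
  rfl

variable {t}

lemma abs_combA_le {G : Pot t J N} {B : ℝ} (hG : RegPot t G B) (hK : 1 ≤ K) (hN : 0 < N)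
    (p : Param K) : |combA t G p| ≤ 2 * K * supTheta p := by
  have h := abs_combA_sub_le hG hK hN (p := p) (p' := nullP) (supTheta_nonneg p)
    fun σ => by rw [theta_nullP, sub_zero]; exact abs_theta_le p σ
  rwa [combA_nullP fun l v ω0 => lpot_addCav_nullP t hG l v ω0, sub_zero] at h

lemma abs_prod_le_one {ι : Type} (s : Finset ι) {f : ι → ℝ} (h : ∀ i, |f i| ≤ 1) :
    |∏ i ∈ s, f i| ≤ 1 := by
  rw [Finset.abs_prod]; exact prod_le_one (fun i _ => abs_nonneg _) fun i _ => h i

lemma abs_mean_le {f : Bool → ℝ} {x : ℝ} (hf : ∀ e, |f e| ≤ 1) (hx : |x| ≤ 1) :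
    |∑ b : Bool, f b * ((1 + x * spin b) / 2)| ≤ 1 := by
  refine (Finset.abs_sum_le_sum_abs _ _).trans ((sum_le_sum fun b _ => ?_).trans_eq (sum_weight x))
  rw [abs_mul, abs_of_nonneg (weight_nonneg hx b)]
  exact mul_le_of_le_one_left (weight_nonneg hx b) (hf b)

lemma msgMean_eq (f : Bool → ℝ) (x : ℝ) :
    msgMean f x = ∑ b : Bool, f b * ((1 + x * spin b) / 2) := by
  rw [Fintype.sum_bool]
  simp only [msgMean, spin, Bool.false_eq_true, if_false, if_true]
  ring

/-- The combination at `a = 1` is the combination of increments of systems. -/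
lemma upperComb_eq {G : Pot t J N} {B : ℝ} (hG : RegPot t G B) {q : ℝ × (Fin K → Bool → ℝ)}
    (hq : GoodP (((1, q.1), q.2) : Param K)) (ω : ℕ → (J → ℝ) × (Fin N → Bool))
    (ω' : ℕ → Fin K → ℝ) :
    upperComb (baseSys t G) (msgSys t) (fun v p => (p (t.r + 1)).2 v) unit01 (msgObs t) ω ω' q =
      combA t G ((1, q.1), q.2) := by
  set p : Param K := ((1, q.1), q.2) with hp
  have hcl : ∀ i : Fin K → Fin N, (baseSys t G).incr
      (fun u => q.1 * ∏ j, q.2 j ((u (t.r + 1)).2 (i j))) 0 ω =
      lpot t (addCl t G p i) - lpot t G := by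
    intro i
    rw [Sys.incr, ← lpot_eq_base t hG]
    congr 1
    refine (lpot_eq_u t _ rfl rfl Prod.fst Prod.snd (MeasurePreserving.id _) (hG.addCl p i)
      (fun u => ?_) ω).symm
    simp [Sys.add, baseSys, addCl, theta, hp]
  have hcav : ∀ (l : Fin K) (v : Fin N) (θ : Fin K → ℝ),
      ((baseSys t G).prod ((msgSys t).copies (Fin K))).incr
        (fun u => q.1 * q.2 l ((u (t.r + 1)).1.2 v) *
          ∏ j ∈ univ.erase l, msgMean (q.2 j) (msgObs t (θ j) fun i => (u i).2 j))
        0 (fun i => (ω i, ω' i)) = lpot t (addCav t G p l v θ) - lpot t G := by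
    intro l v θ
    rw [Sys.incr, join_u_base t hG]
    congr 1
    refine Eq.trans ?_ (lpot_eq_join t
      (fun w σ => Real.log (gFac p l (σ v) (msgs t θ fun q j => w q (Sum.inr j))))
      (hG.addCav p l v θ) (fun i => (ω i, ω' i))).symm
    congr 2
    funext u
    rw [hq.gFac_eq]
    simp only [hp, one_mul, msgMean_eq]
    rfl
  have hV : ∀ θ : Fin K → ℝ, ((msgSys t).copies (Fin K)).incr
      (fun u => q.1 * ∏ j, msgMean (q.2 j) (msgObs t (θ j) fun i => u i j)) 0 ω' =
      lpot t (potOne t p θ) := by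
    intro θ
    rw [Sys.incr, msgs_u_zero, sub_zero, lpot_eq_V t (regPot_potOne p θ) ω']
    congr 2
    funext u
    simp only [potOne]
    rw [hq.vFac_eq]
    simp only [msgMean_eq, hp, one_mul]
    rfl
  simp only [upperComb, combA, hcl, hcav, hV]
  rfl

/-- Multiplying `exp θ` by a constant changes nothing. -/
lemma combA_shift {G : Pot t J N} {B : ℝ} (hG : RegPot t G B) (hK : 1 ≤ K) (hN : 0 < N)
    {p : Param K} (hp : GoodP p) : combA t G p = combA t G ((1, p.1.2), p.2) := by
  have : Nonempty (Fin N) := ⟨⟨0, hN⟩⟩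
  have : Nonempty (Fin K) := ⟨⟨0, hK⟩⟩
  set p' : Param K := ((1, p.1.2), p.2) with hp'
  have hg' : GoodP p' := ⟨one_pos, hp.2.1, hp.2.2⟩
  set c := Real.log p.1.1
  have hpos : ∀ {z : ℝ}, |z| ≤ 1 → 0 < 1 + p.1.2 * z := fun hz => by
    have h : |p.1.2 * _| < 1 := lt_of_le_of_lt
      (by rw [abs_mul]; exact mul_le_of_le_one_right (abs_nonneg _) hz) hp.2.1
    linarith [(abs_lt.1 h).1]
  have hth : ∀ σ, theta p σ = theta p' σ + c := fun σ => by
    simp [theta, hp', c]; ring
  have hgf : ∀ (l : Fin K) (e : Bool) {x : Fin K → ℝ}, (∀ j, |x j| ≤ 1) →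
      Real.log (gFac p l e x) = Real.log (gFac p' l e x) + c := by
    intro l e x hx
    have hz := hpos (z := p.2 l e *
      ∏ j ∈ univ.erase l, ∑ b : Bool, p.2 j b * ((1 + x j * spin b) / 2))
      ((abs_mul _ _).trans_le (mul_le_one₀ (hp.2.2 l e) (abs_nonneg _)
        (abs_prod_le_one _ fun j => abs_mean_le (hp.2.2 j) (hx j))))
    rw [← mul_assoc] at hz
    rw [hp.gFac_eq, hg'.gFac_eq, Real.log_mul hp.1.ne' hz.ne']
    simp [hp', c]; ring
  have hvf : ∀ {x : Fin K → ℝ}, (∀ j, |x j| ≤ 1) →
      Real.log (vFac p x) = Real.log (vFac p' x) + c := by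
    intro x hx
    have hz := hpos (z := ∏ j, ∑ b : Bool, p.2 j b * ((1 + x j * spin b) / 2))
      (abs_prod_le_one _ fun j => abs_mean_le (hp.2.2 j) (hx j))
    rw [hp.vFac_eq, hg'.vFac_eq, Real.log_mul hp.1.ne' hz.ne']
    simp [hp', c]; ring
  have h1 : ∀ i : Fin K → Fin N,
      lpot t (addCl t G p i) = lpot t (addCl t G p' i) + c := fun i => by
    rw [show addCl t G p i = fun w σ => addCl t G p' i w σ + c from
      funext fun w => funext fun σ => by simp only [addCl, hth, add_assoc]]
    exact lpot_add_const t c ⟨_, hG.addCl p' i⟩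
  have h2 : ∀ l v ω0, lpot t (addCav t G p l v ω0) = lpot t (addCav t G p' l v ω0) + c :=
    fun l v ω0 => by
      rw [show addCav t G p l v ω0 = fun w σ => addCav t G p' l v ω0 w σ + c from
        funext fun w => funext fun σ => by
          simp only [addCav, hgf _ _ (abs_msgs_le t _ _), add_assoc]]
      exact lpot_add_const t c ⟨_, hG.addCav p' l v ω0⟩
  have h3 : ∀ ω0, lpot t (potOne t p ω0) = lpot t (potOne t p' ω0) + c := fun ω0 => by
    rw [show potOne t p ω0 = fun w σ => potOne t p' ω0 w σ + c from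
      funext fun w => funext fun σ => hvf (abs_msgs_le t _ _)]
    exact lpot_add_const t c ⟨_, regPot_potOne p' ω0⟩
  have hA : ∀ {α : Type} [Fintype α] [Nonempty α] (F : α → ℝ),
      avg (fun a => F a + c) = avg F + c := by
    intro α _ _ F
    have h0 : (Fintype.card α : ℝ) ≠ 0 := Nat.cast_ne_zero.2 Fintype.card_ne_zero
    simp only [avg, sum_add_distrib, sum_const, card_univ, nsmul_eq_mul]
    field_simp
  have e1 : avg (fun i : Fin K → Fin N => lpot t (addCl t G p i) - lpot t G) =
      avg (fun i : Fin K → Fin N => lpot t (addCl t G p' i) - lpot t G) + c := by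
    rw [← hA]
    exact congrArg avg (funext fun i => by rw [h1]; ring)
  have e2 : avg (fun lv : Fin K × Fin N =>
        ∫ ω0, (lpot t (addCav t G p lv.1 lv.2 ω0) - lpot t G) ∂unifLaw (Fin K)) =
      avg (fun lv : Fin K × Fin N =>
        ∫ ω0, (lpot t (addCav t G p' lv.1 lv.2 ω0) - lpot t G) ∂unifLaw (Fin K)) + c := by
    rw [← hA]
    refine congrArg avg (funext fun lv => ?_)
    rw [show (fun ω0 => lpot t (addCav t G p lv.1 lv.2 ω0) - lpot t G) =
        fun ω0 => (lpot t (addCav t G p' lv.1 lv.2 ω0) - lpot t G) + c from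
      funext fun ω0 => by rw [h2]; ring]
    rw [integral_add (integrable_addCav hG p' lv.1 lv.2) (integrable_const c), integral_const,
      probReal_univ, one_smul]
  have e3 : ∫ ω0, lpot t (potOne t p ω0) ∂unifLaw (Fin K) =
      (∫ ω0, lpot t (potOne t p' ω0) ∂unifLaw (Fin K)) + c := by
    simp only [h3]
    rw [integral_add (integrable_potOne p') (integrable_const c), integral_const, probReal_univ,
      one_smul]
  simp only [combA, e1, e2, e3]
  ring

lemma abs_log_damp_le {x y r : ℝ} (hx : -1 < x) (hy : -1 < y) (hr : 0 ≤ r) (hr1 : r ≤ 1) :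
    |Real.log (1 + r * x) - Real.log (1 + r * y)| ≤ |Real.log (1 + x) - Real.log (1 + y)| := by
  wlog hxy : y ≤ x generalizing x y
  · rw [abs_sub_comm, abs_sub_comm (Real.log (1 + x))]
    exact this hy hx (le_of_not_ge hxy)
  have hp : ∀ {z : ℝ}, -1 < z → 0 < 1 + r * z := fun hz => by
    rcases hr.eq_or_lt with h | h
    · simp [← h]
    · nlinarith
  have h1 : Real.log (1 + r * y) ≤ Real.log (1 + r * x) :=
    Real.log_le_log (hp hy) (by linarith [mul_le_mul_of_nonneg_left hxy hr])
  have h2 : Real.log (1 + y) ≤ Real.log (1 + x) := Real.log_le_log (by linarith) (by linarith)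
  have h3 : Real.log (1 + r * x) + Real.log (1 + y) ≤ Real.log (1 + x) + Real.log (1 + r * y) := by
    rw [← Real.log_mul (hp hx).ne' (by linarith), ← Real.log_mul (by linarith) (hp hy).ne']
    refine Real.log_le_log (mul_pos (hp hx) (by linarith)) ?_
    nlinarith [mul_nonneg (sub_nonneg.2 hr1) (sub_nonneg.2 hxy)]
  rw [abs_of_nonneg (sub_nonneg.2 h1), abs_of_nonneg (sub_nonneg.2 h2)]
  linarith

/-- The combination of increments is nonpositive on average over the clause. -/
theorem integral_combA_nonpos {M : Model} (hM : M.Valid) {G : Pot t J N} {B : ℝ}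
    (hG : RegPot t G B) (hN : 0 < N) :
    Integrable (fun p => combA t G p) M.clauseLaw ∧ ∫ p, combA t G p ∂M.clauseLaw ≤ 0 := by
  have := hM.clause_prob
  have := hM.b_prob
  have := hM.f_prob
  have hK1 : 1 ≤ M.K := by have := hM.two_le; omega
  have hmeas := measurable_combA (K := M.K) hG
  have hsup : Integrable (supTheta (K := M.K)) M.clauseLaw := hM.theta_int
  set P := Measure.pi fun _ : Fin M.K => M.fLaw
  have hf : ∀ᵐ f ∂P, ∀ j e, |f j e| ≤ 1 := by
    rw [ae_all_iff]
    exact fun j => (measurePreserving_eval (fun _ => M.fLaw) j).quasiMeasurePreserving.ae hM.f_bound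
  have hφ : Measurable fun p : Param M.K => (p.1.2, p.2) := by fun_prop
  have hgood : ∀ᵐ p ∂M.clauseLaw, GoodP p := by
    have h1 : ∀ᵐ p ∂M.clauseLaw, |p.1.2| < 1 ∧ ∀ j e, |p.2 j e| ≤ 1 := by
      refine ae_of_ae_map (p := fun q : ℝ × (Fin M.K → Bool → ℝ) => |q.1| < 1 ∧ ∀ j e, |q.2 j e| ≤ 1)
        hφ.aemeasurable ?_
      rw [hM.marginal]
      filter_upwards [Measure.quasiMeasurePreserving_fst.ae hM.b_mem,
        Measure.quasiMeasurePreserving_snd.ae hf] with q h1 h2
      exact ⟨abs_lt.2 h1, h2⟩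
    filter_upwards [hM.a_pos, h1] with p h h'
    exact ⟨h, h'.1, h'.2⟩
  refine ⟨(hsup.const_mul (2 * M.K)).mono' hmeas.aestronglyMeasurable
    (.of_forall fun p => abs_combA_le hG hK1 hN p), ?_⟩
  let Φ : ℝ × (Fin M.K → Bool → ℝ) → ℝ := fun q => combA t G ((1, q.1), q.2)
  have hΦ : Measurable Φ := hmeas.comp (by fun_prop)
  -- the damped class
  set r : ℕ → ℝ := fun n => 1 - 1 / ((n : ℝ) + 2)
  have hr : ∀ n, 0 ≤ r n ∧ r n < 1 := fun n => by
    have h2 : (0 : ℝ) < (n : ℝ) + 2 := by positivity
    have h3 : 1 / ((n : ℝ) + 2) ≤ 1 := by rw [div_le_one h2]; linarith [(Nat.cast_nonneg n : (0:ℝ) ≤ n)]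
    exact ⟨by simp only [r]; linarith, by simp only [r]; linarith [one_div_pos.2 h2]⟩
  have hneg : ∀ n, ∫ p, Φ (r n * p.1.2, p.2) ∂M.clauseLaw ≤ 0 := by
    intro n
    obtain ⟨hr0, hr1⟩ := hr n
    have hsc : Measurable fun b : ℝ => r n * b := measurable_const_mul _
    have := Measure.isProbabilityMeasure_map (μ := M.bLaw) hsc.aemeasurable
    have hb : ∀ᵐ b ∂M.bLaw.map (fun b => r n * b), |b| ≤ r n := by
      rw [ae_map_iff hsc.aemeasurable (measurableSet_le (by fun_prop) measurable_const)]
      filter_upwards [hM.b_mem] with b hb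
      rw [abs_mul, abs_of_nonneg hr0]
      exact mul_le_of_le_one_right hr0 (abs_lt.2 hb).le
    have hcore := upper_core (baseSys_good t hG) (msgSys_good t) rfl rfl hN hM.even hM.two_le
      (fun v p => (p (t.r + 1)).2 v)
      (fun v => (measurable_pi_apply v).comp (measurable_snd.comp (measurable_pi_apply _)))
      (ν := unit01) (msgObs t)
      (t.x_meas.comp (measurable_pi_lambda _ fun i => by
        cases i using Fin.cases <;> simp only [Fin.cons_zero, Fin.cons_succ] <;> fun_prop))
      (fun θ ω => abs_le.2 (t.x_mem _))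
      (fun θ a b h => congrArg (fun f : Fin t.r → ℝ => t.x (Fin.cons θ f)) (funext fun p =>
        h _ (by omega) (by have := p.isLt; show (p : ℕ) + 1 ≤ t.r + 1; omega)))
      (fL := M.fLaw) hr1 hb
      (fun m hm => by
        rw [integral_map hsc.aemeasurable (by fun_prop)]
        simp only [← mul_neg, mul_pow]
        rw [integral_const_mul]
        exact mul_nonneg (pow_nonneg hr0 m) (hM.positive m hm))
      hM.f_bound (fun _ => (fun _ => 0, fun _ => true)) (fun _ _ => 0)
    have hae : (fun q => upperComb (baseSys t G) (msgSys t) (fun v p => (p (t.r + 1)).2 v) unit01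
        (msgObs t) (fun _ => (fun _ => 0, fun _ => true)) (fun _ _ => 0) q) =ᵐ[
          (M.bLaw.map fun b => r n * b).prod P] Φ := by
      filter_upwards [Measure.quasiMeasurePreserving_fst.ae hb,
        Measure.quasiMeasurePreserving_snd.ae hf] with q h1 h2
      exact upperComb_eq hG ⟨one_pos, h1.trans_lt hr1, h2⟩ _ _
    rw [integral_congr_ae hae] at hcore
    have hmap : (M.bLaw.map fun b => r n * b).prod P =
        M.clauseLaw.map fun p => (r n * p.1.2, p.2) := by
      have h := Measure.map_prod_map M.bLaw P hsc measurable_id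
      rw [Measure.map_id] at h
      rw [h, ← hM.marginal, Measure.map_map (hsc.prodMap measurable_id) hφ]
      rfl
    rw [hmap, integral_map (by fun_prop) hΦ.aestronglyMeasurable] at hcore
    exact hcore
  have hlim : Filter.Tendsto (fun n => ∫ p, Φ (r n * p.1.2, p.2) ∂M.clauseLaw) Filter.atTop
      (nhds (∫ p, combA t G p ∂M.clauseLaw)) := by
    refine tendsto_integral_of_dominated_convergence (fun p => 2 * M.K * (3 * supTheta p))
      (fun n => (hΦ.comp (by fun_prop)).aestronglyMeasurable) ((hsup.const_mul 3).const_mul _)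
      (fun n => ?_) ?_
    · filter_upwards [hgood] with p hp
      obtain ⟨hr0, hr1⟩ := hr n
      -- a shift with bounded `θ`
      let σ0 : Fin M.K → Bool := fun _ => true
      set P0 := ∏ j, p.2 j (σ0 j)
      have hrb : |r n * p.1.2| < 1 := by
        rw [abs_mul, abs_of_nonneg hr0]
        exact (mul_le_of_le_one_left (abs_nonneg _) hr1.le).trans_lt hp.2.1
      let pr : Param M.K :=
        ((Real.exp (theta p σ0) / (1 + r n * p.1.2 * P0), r n * p.1.2), p.2)
      have hg1 : GoodP (((1, r n * p.1.2), p.2) : Param M.K) := ⟨one_pos, hrb, hp.2.2⟩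
      have hd0 : 0 < 1 + r n * p.1.2 * P0 := hg1.one_add_pos σ0
      have hgr : GoodP pr := ⟨div_pos (Real.exp_pos _) hd0, hrb, hp.2.2⟩
      have hsupr : supTheta pr ≤ 3 * supTheta p := by
        refine sup'_le _ _ fun σ _ => ?_
        set P1 := ∏ j, p.2 j (σ j)
        have e : theta pr σ = theta p σ0 + (Real.log (1 + r n * (p.1.2 * P1)) -
            Real.log (1 + r n * (p.1.2 * P0))) := by
          show Real.log (Real.exp (theta p σ0) / (1 + r n * p.1.2 * P0)) +
            Real.log (1 + r n * p.1.2 * P1) = _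
          rw [Real.log_div (Real.exp_pos _).ne' hd0.ne', Real.log_exp]
          simp only [mul_assoc]
          ring
        have hb2 := abs_log_damp_le (x := p.1.2 * P1) (y := p.1.2 * P0)
          (by linarith [hp.one_add_pos σ]) (by linarith [hp.one_add_pos σ0]) hr0 hr1.le
        have e2 : Real.log (1 + p.1.2 * P1) - Real.log (1 + p.1.2 * P0) =
            theta p σ - theta p σ0 := by
          show _ = Real.log p.1.1 + Real.log (1 + p.1.2 * P1) -
            (Real.log p.1.1 + Real.log (1 + p.1.2 * P0))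
          ring
        rw [e2] at hb2
        rw [e]
        refine (abs_add_le _ _).trans ((add_le_add (abs_theta_le p σ0)
          (hb2.trans (abs_sub _ _))).trans ?_)
        linarith [abs_theta_le p σ, abs_theta_le p σ0]
      have heq : Φ (r n * p.1.2, p.2) = combA t G pr := (combA_shift hG hK1 hN hgr).symm
      rw [Real.norm_eq_abs, heq]
      exact (abs_combA_le hG hK1 hN pr).trans
        (mul_le_mul_of_nonneg_left hsupr (by positivity))
    · filter_upwards [hgood] with p hp
      rw [combA_shift hG hK1 hN hp, tendsto_iff_dist_tendsto_zero]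
      let d : ℕ → ℝ := fun n => ∑ σ : Fin M.K → Bool,
        |theta (((1, r n * p.1.2), p.2) : Param M.K) σ - theta (((1, p.1.2), p.2) : Param M.K) σ|
      refine squeeze_zero (fun n => dist_nonneg) (g := fun n => 2 * M.K * d n) (fun n => ?_) ?_
      · rw [Real.dist_eq]
        exact abs_combA_sub_le hG hK1 hN (sum_nonneg fun _ _ => abs_nonneg _) fun σ =>
          single_le_sum (f := fun σ => |theta (((1, r n * p.1.2), p.2) : Param M.K) σ -
            theta (((1, p.1.2), p.2) : Param M.K) σ|) (fun _ _ => abs_nonneg _) (mem_univ σ)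
      · have hr1 : Filter.Tendsto r Filter.atTop (nhds 1) := by
          have h : Filter.Tendsto (fun n : ℕ => 1 / ((n : ℝ) + 2)) Filter.atTop (nhds 0) :=
            (Filter.tendsto_atTop_add_const_right _ 2 tendsto_natCast_atTop_atTop).const_div_atTop 1
          simpa [r] using h.const_sub 1
        have hd : Filter.Tendsto d Filter.atTop (nhds (∑ _σ : Fin M.K → Bool, (0 : ℝ))) := by
          refine tendsto_finsetSum _ fun σ _ => ?_
          have hz := (hr1.mul_const (p.1.2)).mul_const (∏ j, p.2 j (σ j))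
          rw [one_mul] at hz
          have h' := (((tendsto_const_nhds (x := (1 : ℝ))).add hz).log
            (hp.one_add_pos σ).ne').sub_const (Real.log (1 + p.1.2 * ∏ j, p.2 j (σ j))) |>.abs
          simpa [theta] using h'
        simpa using hd.const_mul (2 * (M.K : ℝ))
  exact le_of_tendsto hlim (.of_forall hneg)

end Vale.Agent.P168.Up
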