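import Vale.Agent.P168.Val

/-!
Elementary properties of the recursion `collapse`: monotonicity, scaling, products over disjoint
sets of messages, relabelling, measurability in a parameter; product measures.
-/

namespace Vale.Agent.P168.Up

open MeasureTheory Finset

/-- The uniform law of one coordinate. -/
noncomputable def unit01 : Measure ℝ := volume.restrict (Set.Icc (0 : ℝ) 1)

instance : IsProbabilityMeasure unit01 :=
  ⟨by rw [unit01, Measure.restrict_apply_univ, Real.volume_Icc]; norm_num⟩

/-! ### Product measures -/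

section Glue

variable {J V : Type} [Fintype J] [Fintype V] [DecidableEq V] {α : Type} [MeasurableSpace α]

/-- Restriction to an injective image keeps a product law. -/
lemma measurePreserving_restrict (μ : Measure α) [IsProbabilityMeasure μ] {I : Type} [Fintype I]
    (ι : I → J) (hι : Function.Injective ι) :
    MeasurePreserving (fun x : J → α => fun i => x (ι i)) (Measure.pi fun _ => μ)
      (Measure.pi fun _ => μ) := by
  classical
  have hm : Measurable fun x : J → α => fun i => x (ι i) :=
    measurable_pi_lambda _ fun i => measurable_pi_apply _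
  refine ⟨hm, (Measure.pi_eq fun s hs => ?_).symm⟩
  rw [Measure.map_apply hm (MeasurableSet.univ_pi hs)]
  let t : J → Set α := fun j => if h : ∃ i, ι i = j then s h.choose else Set.univ
  have ht : ∀ i, t (ι i) = s i := fun i => by
    have h : ∃ i', ι i' = ι i := ⟨i, rfl⟩
    simp only [t, dif_pos h, hι h.choose_spec]
  have hpre : (fun x : J → α => fun i => x (ι i)) ⁻¹' Set.univ.pi s = Set.univ.pi t := by
    ext x
    simp only [Set.mem_preimage, Set.mem_univ_pi]
    refine ⟨fun h j => ?_, fun h i => ht i ▸ h (ι i)⟩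
    simp only [t]
    split_ifs with hj
    · have := h hj.choose
      rwa [hj.choose_spec] at this
    · exact Set.mem_univ _
  rw [hpre, Measure.pi_pi, ← Fintype.prod_of_injective ι hι (fun i => μ (s i)) (fun j => μ (t j))
    (fun j hj => ?_) fun i => by rw [ht]]
  simp only [t]
  rw [dif_neg (fun ⟨i, hi⟩ => hj ⟨i, hi⟩), measure_univ]

/-- The fibres of a map, glued. -/
def glue (π : J → V) (X : ∀ v, {j // π j = v} → α) (j : J) : α := X (π j) ⟨j, rfl⟩

lemma measurePreserving_glue (μ : Measure α) [IsProbabilityMeasure μ] (π : J → V) :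
    MeasurePreserving (glue π) (Measure.pi fun v => Measure.pi fun _ : {j // π j = v} => μ)
      (Measure.pi fun _ => μ) := by
  have hm : Measurable (glue (α := α) π) :=
    measurable_pi_lambda _ fun j =>
      (measurable_pi_apply (⟨j, rfl⟩ : {i // π i = π j})).comp (measurable_pi_apply (π j))
  refine ⟨hm, (Measure.pi_eq fun s hs => ?_).symm⟩
  rw [Measure.map_apply hm (MeasurableSet.univ_pi hs)]
  have hpre : glue π ⁻¹' Set.univ.pi s =
      Set.univ.pi fun v => Set.univ.pi fun j : {j // π j = v} => s j.1 := by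
    ext X
    simp only [Set.mem_preimage, Set.mem_univ_pi, glue]
    refine ⟨fun h v j => ?_, fun h j => h (π j) ⟨j, rfl⟩⟩
    obtain ⟨j, rfl⟩ := j
    exact h j
  rw [hpre, Measure.pi_pi]
  simp only [Measure.pi_pi]
  exact Fintype.prod_fiberwise π fun j => μ (s j)

/-- Functions of different fibres are independent. -/
lemma integral_fibre_prod (μ : Measure α) [IsProbabilityMeasure μ] (π : J → V)
    (F : ∀ v, ({j // π j = v} → α) → ℝ) :
    ∫ x, ∏ v, F v (fun j => x j.1) ∂Measure.pi (fun _ : J => μ) =
      ∏ v, ∫ y, F v y ∂Measure.pi fun _ : {j // π j = v} => μ := by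
  let e : (∀ v, {j // π j = v} → α) ≃ᵐ (J → α) :=
    { toFun := glue π
      invFun := fun x _ j => x j.1
      left_inv := fun X => by
        funext v j
        obtain ⟨j, rfl⟩ := j
        rfl
      right_inv := fun x => rfl
      measurable_toFun := (measurePreserving_glue μ π).measurable
      measurable_invFun :=
        measurable_pi_lambda _ fun v => measurable_pi_lambda _ fun j => measurable_pi_apply j.1 }
  rw [← (show MeasurePreserving e _ _ from measurePreserving_glue μ π).integral_comp']
  refine (integral_congr_ae (.of_forall fun X => ?_)).trans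
    (integral_fintype_prod_eq_prod (fun v => F v))
  refine prod_congr rfl fun v _ => congrArg (F v) ?_
  funext j
  obtain ⟨j, rfl⟩ := j
  rfl

/-- Relabelling keeps a product law. -/
lemma integral_relabel (μ : Measure α) [IsProbabilityMeasure μ] {I : Type} [Fintype I] (e : J ≃ I)
    (F : (J → α) → ℝ) :
    ∫ x, F (fun j => x (e j)) ∂Measure.pi (fun _ : I => μ) =
      ∫ x, F x ∂Measure.pi fun _ : J => μ := by
  let g : (I → α) ≃ᵐ (J → α) :=
    { toFun := fun x j => x (e j)
      invFun := fun y i => y (e.symm i)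
      left_inv := fun x => by funext i; simp
      right_inv := fun y => by funext j; simp
      measurable_toFun := measurable_pi_lambda _ fun j => measurable_pi_apply _
      measurable_invFun := measurable_pi_lambda _ fun i => measurable_pi_apply _ }
  exact (show MeasurePreserving g _ _ from
    measurePreserving_restrict μ (fun j => e j) e.injective).integral_comp' F

end Glue

/-! ### The recursion -/

variable {J : Type} [Fintype J]

instance : IsProbabilityMeasure (unifLaw J) :=
  inferInstanceAs (IsProbabilityMeasure (Measure.pi fun _ => unit01))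

lemma collapse_nonneg : ∀ {r : ℕ} (m : Fin r → ℝ) {Y : (Fin r → J → ℝ) → ℝ},
    (∀ w, 0 ≤ Y w) → 0 ≤ collapse r m Y
  | 0, _, _, h => h _
  | _ + 1, _, _, h => Real.rpow_nonneg
      (integral_nonneg fun _ => Real.rpow_nonneg (collapse_nonneg _ fun _ => h _) _) _

lemma collapse_const {c : ℝ} (hc : 0 ≤ c) : ∀ {r : ℕ} {m : Fin r → ℝ}, (∀ p, m p ≠ 0) →
    collapse r m (fun _ : Fin r → J → ℝ => c) = c
  | 0, _, _ => rfl
  | r + 1, m, hm => by
    have ih := collapse_const hc (r := r) (m := fun p => m p.succ) fun p => hm _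
    simp only [collapse, ih, integral_const, probReal_univ, one_smul]
    rw [← Real.rpow_mul hc, mul_one_div_cancel (hm 0), Real.rpow_one]

lemma collapse_const_mul {c : ℝ} (hc : 0 ≤ c) : ∀ {r : ℕ} {m : Fin r → ℝ}
    {Y : (Fin r → J → ℝ) → ℝ}, (∀ p, m p ≠ 0) → (∀ w, 0 ≤ Y w) →
    collapse r m (fun w => c * Y w) = c * collapse r m Y
  | 0, _, _, _, _ => rfl
  | r + 1, m, Y, hm, hY => by
    have ih : ∀ e : J → ℝ, collapse r (fun p => m p.succ) (fun w => c * Y (Fin.cons e w)) =
        c * collapse r (fun p => m p.succ) fun w => Y (Fin.cons e w) := fun e =>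
      collapse_const_mul hc (fun p => hm _) fun w => hY _
    simp only [collapse, ih, Real.mul_rpow hc (collapse_nonneg _ fun _ => hY _)]
    rw [integral_const_mul, Real.mul_rpow (Real.rpow_nonneg hc _) (integral_nonneg fun _ =>
      Real.rpow_nonneg (collapse_nonneg _ fun _ => hY _) _), ← Real.rpow_mul hc,
      mul_one_div_cancel (hm 0), Real.rpow_one]

lemma measurable_collapse : ∀ {P : Type} [MeasurableSpace P] {r : ℕ} (m : Fin r → ℝ)
    {Y : P → (Fin r → J → ℝ) → ℝ},
    Measurable (fun z : P × (Fin r → J → ℝ) => Y z.1 z.2) →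
    Measurable fun p => collapse r m (Y p)
  | _, _, 0, _, Y, hY => hY.comp (measurable_id.prodMk measurable_const)
  | P, _, r + 1, m, Y, hY => by
    have h1 : Measurable fun z : (P × (J → ℝ)) × (Fin r → J → ℝ) =>
        Y z.1.1 (Fin.cons z.1.2 z.2) := by
      refine hY.comp ((measurable_fst.comp measurable_fst).prodMk (measurable_pi_lambda _ fun i => ?_))
      refine Fin.cases ?_ (fun i => ?_) i
      · exact measurable_snd.comp measurable_fst
      · exact (measurable_pi_apply i).comp measurable_snd
    have h2 := measurable_collapse (fun p => m p.succ) (P := P × (J → ℝ))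
      (Y := fun q w => Y q.1 (Fin.cons q.2 w)) h1
    simp only [collapse]
    exact (StronglyMeasurable.integral_prod_right'
      (f := fun q : P × (J → ℝ) => collapse r (fun p => m p.succ)
        (fun w => Y q.1 (Fin.cons q.2 w)) ^ m 0)
      (h2.pow_const _).stronglyMeasurable).measurable.pow_const _

lemma measurable_cons {r : ℕ} {α : Type} [MeasurableSpace α] :
    Measurable fun z : α × (Fin r → α) => (Fin.cons z.1 z.2 : Fin (r + 1) → α) := by
  refine measurable_pi_lambda _ fun i => Fin.cases ?_ (fun i => ?_) i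
  · exact measurable_fst
  · exact (measurable_pi_apply i).comp measurable_snd

lemma collapse_mem : ∀ {r : ℕ} {m : Fin r → ℝ} {Y : (Fin r → J → ℝ) → ℝ},
    (∀ p, 0 < m p) → Measurable Y → ∀ {a b : ℝ}, 0 < a → (∀ w, Y w ∈ Set.Icc a b) →
    collapse r m Y ∈ Set.Icc a b
  | 0, _, _, _, _, _, _, _, h => h _
  | r + 1, m, Y, hm, hY, a, b, ha, h => by
    have ih : ∀ e : J → ℝ, collapse r (fun p => m p.succ) (fun w => Y (Fin.cons e w)) ∈
        Set.Icc a b := fun e =>
      collapse_mem (fun p => hm _) (hY.comp (measurable_cons.comp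
        (measurable_const.prodMk measurable_id))) ha fun w => h _
    have hb : 0 ≤ b := (ha.le.trans (ih fun _ => 0).1).trans (ih fun _ => 0).2
    have hi : Integrable (fun e : J → ℝ =>
        collapse r (fun p => m p.succ) (fun w => Y (Fin.cons e w)) ^ m 0) (unifLaw J) := by
      refine Integrable.of_bound ((measurable_collapse _ (P := J → ℝ)
        (hY.comp measurable_cons)).pow_const _).aestronglyMeasurable (b ^ m 0) (.of_forall fun e => ?_)
      rw [Real.norm_eq_abs, abs_of_nonneg (Real.rpow_nonneg (ha.le.trans (ih e).1) _)]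
      exact Real.rpow_le_rpow (ha.le.trans (ih e).1) (ih e).2 (hm 0).le
    have hlo : a ^ m 0 ≤ ∫ e, collapse r (fun p => m p.succ) (fun w => Y (Fin.cons e w)) ^ m 0
        ∂unifLaw J := by
      have := integral_mono (integrable_const (a ^ m 0)) hi fun e =>
        Real.rpow_le_rpow ha.le (ih e).1 (hm 0).le
      simpa using this
    have hhi : ∫ e, collapse r (fun p => m p.succ) (fun w => Y (Fin.cons e w)) ^ m 0
        ∂unifLaw J ≤ b ^ m 0 := by
      have := integral_mono hi (integrable_const (b ^ m 0)) fun e =>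
        Real.rpow_le_rpow (ha.le.trans (ih e).1) (ih e).2 (hm 0).le
      simpa using this
    have hpos : 0 < a ^ m 0 := Real.rpow_pos_of_pos ha _
    have e1 : ∀ {c : ℝ}, 0 ≤ c → (c ^ m 0) ^ (1 / m 0) = c := fun hc => by
      rw [← Real.rpow_mul hc, mul_one_div_cancel (hm 0).ne', Real.rpow_one]
    simp only [collapse]
    refine ⟨(e1 ha.le).symm.le.trans (Real.rpow_le_rpow hpos.le hlo (one_div_pos.2 (hm 0)).le),
      (Real.rpow_le_rpow (hpos.le.trans hlo) hhi (one_div_pos.2 (hm 0)).le).trans (e1 hb).le⟩

lemma collapse_mono : ∀ {r : ℕ} {m : Fin r → ℝ} {Y Y' : (Fin r → J → ℝ) → ℝ},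
    (∀ p, 0 < m p) → Measurable Y → Measurable Y' → ∀ {a b : ℝ}, 0 < a →
    (∀ w, Y w ∈ Set.Icc a b) → (∀ w, Y' w ∈ Set.Icc a b) → (∀ w, Y w ≤ Y' w) →
    collapse r m Y ≤ collapse r m Y'
  | 0, _, _, _, _, _, _, _, _, _, _, _, h => h _
  | r + 1, m, Y, Y', hm, hY, hY', a, b, ha, hb, hb', h => by
    have hc : ∀ (Z : (Fin (r + 1) → J → ℝ) → ℝ), Measurable Z → ∀ e : J → ℝ,
        Measurable fun w => Z (Fin.cons e w) := fun Z hZ e =>
      hZ.comp (measurable_cons.comp (measurable_const.prodMk measurable_id))
    have hint : ∀ (Z : (Fin (r + 1) → J → ℝ) → ℝ), Measurable Z → (∀ w, Z w ∈ Set.Icc a b) →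
        Integrable (fun e : J → ℝ =>
          collapse r (fun p => m p.succ) (fun w => Z (Fin.cons e w)) ^ m 0) (unifLaw J) := by
      intro Z hZ hZb
      refine Integrable.of_bound ((measurable_collapse _ (P := J → ℝ)
        (hZ.comp measurable_cons)).pow_const _).aestronglyMeasurable (b ^ m 0) (.of_forall fun e => ?_)
      have hmem := collapse_mem (fun p => hm (Fin.succ p)) (hc Z hZ e) ha fun w => hZb _
      rw [Real.norm_eq_abs, abs_of_nonneg (Real.rpow_nonneg (ha.le.trans hmem.1) _)]
      exact Real.rpow_le_rpow (ha.le.trans hmem.1) hmem.2 (hm 0).le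
    simp only [collapse]
    refine Real.rpow_le_rpow (integral_nonneg fun e => Real.rpow_nonneg
      (collapse_nonneg _ fun w => ha.le.trans (hb _).1) _)
      (integral_mono (hint Y hY hb) (hint Y' hY' hb') fun e => ?_) (one_div_pos.2 (hm 0)).le
    exact Real.rpow_le_rpow (collapse_nonneg _ fun w => ha.le.trans (hb _).1)
      (collapse_mono (fun p => hm _) (hc Y hY e) (hc Y' hY' e) ha (fun w => hb _) (fun w => hb' _)
        fun w => h _) (hm 0).le

/-- Two functions within a factor `exp d`. -/
lemma abs_log_collapse_sub_le {r : ℕ} {m : Fin r → ℝ} {Y Y' : (Fin r → J → ℝ) → ℝ}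
    (hm : ∀ p, 0 < m p) (hY : Measurable Y) (hY' : Measurable Y') {B d : ℝ}
    (hb : ∀ w, Y w ∈ Set.Icc (Real.exp (-B)) (Real.exp B))
    (hb' : ∀ w, Y' w ∈ Set.Icc (Real.exp (-B)) (Real.exp B)) (hd : 0 ≤ d)
    (h : ∀ w, Y w ≤ Real.exp d * Y' w ∧ Y' w ≤ Real.exp d * Y w) :
    |Real.log (collapse r m Y) - Real.log (collapse r m Y')| ≤ d := by
  have hm' : ∀ p, m p ≠ 0 := fun p => (hm p).ne'
  have main : ∀ (Z Z' : (Fin r → J → ℝ) → ℝ), Measurable Z → Measurable Z' →
      (∀ w, Z w ∈ Set.Icc (Real.exp (-B)) (Real.exp B)) →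
      (∀ w, Z' w ∈ Set.Icc (Real.exp (-B)) (Real.exp B)) → (∀ w, Z w ≤ Real.exp d * Z' w) →
      Real.log (collapse r m Z) ≤ d + Real.log (collapse r m Z') := by
    intro Z Z' hZ hZ' hZb hZb' hle
    have h0 : ∀ w, 0 ≤ Z' w := fun w => (Real.exp_pos _).le.trans (hZb' w).1
    have h1 : collapse r m Z ≤ Real.exp d * collapse r m Z' := by
      rw [← collapse_const_mul (Real.exp_pos d).le hm' h0]
      refine collapse_mono hm hZ (hZ'.const_mul _) (a := Real.exp (-B)) (b := Real.exp (d + B))
        (Real.exp_pos _) (fun w => ⟨(hZb w).1, (hZb w).2.trans (Real.exp_le_exp.2 (by linarith))⟩)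
        (fun w => ⟨(hZb' w).1.trans (le_mul_of_one_le_left (h0 w) (Real.one_le_exp hd)), ?_⟩) hle
      rw [Real.exp_add]
      exact mul_le_mul_of_nonneg_left (hZb' w).2 (Real.exp_pos _).le
    have hz := collapse_mem hm hZ (Real.exp_pos _) hZb
    have hz' := collapse_mem hm hZ' (Real.exp_pos _) hZb'
    have h2 := Real.log_le_log ((Real.exp_pos _).trans_le hz.1) h1
    rwa [Real.log_mul (Real.exp_pos d).ne' ((Real.exp_pos _).trans_le hz'.1).ne', Real.log_exp]
      at h2
  rw [abs_sub_le_iff]
  constructor
  · linarith [main Y Y' hY hY' hb hb' fun w => (h w).1]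
  · linarith [main Y' Y hY' hY hb' hb fun w => (h w).2]

/-- Relabelling the messages. -/
lemma collapse_relabel {I : Type} [Fintype I] (e : J ≃ I) : ∀ {r : ℕ} (m : Fin r → ℝ)
    (Y : (Fin r → J → ℝ) → ℝ),
    collapse r m (fun w : Fin r → I → ℝ => Y fun p j => w p (e j)) = collapse r m Y
  | 0, _, Y => congrArg Y (funext fun p => Fin.elim0 p)
  | r + 1, m, Y => by
    have hf : ∀ f : I → ℝ, collapse r (fun p => m p.succ)
        (fun w => Y fun p j => (Fin.cons f w : Fin (r + 1) → I → ℝ) p (e j)) =
        collapse r (fun p => m p.succ) fun w => Y (Fin.cons (fun j => f (e j)) w) := fun f => by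
      refine Eq.trans (congrArg _ (funext fun w => congrArg Y (funext fun p => ?_)))
        (collapse_relabel e (fun p => m p.succ) fun w => Y (Fin.cons (fun j => f (e j)) w))
      refine Fin.cases ?_ (fun p => ?_) p
      · simp only [Fin.cons_zero]
      · simp only [Fin.cons_succ]
    simp only [collapse, hf]
    congr 1
    exact integral_relabel unit01 e
      (fun g => collapse r (fun p => m p.succ) (fun w => Y (Fin.cons g w)) ^ m 0)

/-- Products over disjoint sets of messages. -/
lemma collapse_prod {V : Type} [Fintype V] [DecidableEq V] (π : J → V) : ∀ {r : ℕ} (m : Fin r → ℝ)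
    (Y : ∀ v, (Fin r → {j // π j = v} → ℝ) → ℝ), (∀ v w, 0 ≤ Y v w) →
    collapse r m (fun w => ∏ v, Y v fun p j => w p j.1) = ∏ v, collapse r m (Y v)
  | 0, _, Y, _ => prod_congr rfl fun v _ => congrArg (Y v) (funext fun p => Fin.elim0 p)
  | r + 1, m, Y, hY => by
    have hf : ∀ e : J → ℝ, collapse r (fun p => m p.succ)
        (fun w => ∏ v, Y v fun p j => (Fin.cons e w : Fin (r + 1) → J → ℝ) p j.1) =
        ∏ v, collapse r (fun p => m p.succ)
          fun w => Y v (Fin.cons (fun j => e j.1) w) := fun e => by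
      refine Eq.trans (congrArg _ (funext fun w => prod_congr rfl fun v _ =>
        congrArg (Y v) (funext fun p => ?_)))
        (collapse_prod π (fun p => m p.succ) (fun v w => Y v (Fin.cons (fun j => e j.1) w))
          fun v w => hY v _)
      refine Fin.cases ?_ (fun p => ?_) p
      · simp only [Fin.cons_zero]
      · simp only [Fin.cons_succ]
    have hnn : ∀ v (e : {j // π j = v} → ℝ),
        0 ≤ collapse r (fun p => m p.succ) fun w => Y v (Fin.cons e w) := fun v e =>
      collapse_nonneg _ fun w => hY v _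
    simp only [collapse, hf, ← Real.finsetProd_rpow univ _ (fun v _ => hnn v _)]
    rw [show unifLaw J = Measure.pi fun _ => unit01 from rfl,
      integral_fibre_prod unit01 π
        (fun v y => collapse r (fun p => m p.succ) (fun w => Y v (Fin.cons y w)) ^ m 0),
      ← Real.finsetProd_rpow univ _ (fun v _ => integral_nonneg fun y =>
        Real.rpow_nonneg (hnn v y) _)]
    rfl

end Vale.Agent.P168.Up
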