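import Vale.Agent.P168.Poisson

/-!
The interpolation in Poisson form: if one more point of the first kind costs no more than `κ` times
one more point of the second kind, then `E g(π_T, 0) ≤ E g(0, π_{κ T})`.
-/

namespace Vale.Agent.P168.Up

open P168.Poisson

variable {g : ℕ → ℕ → ℝ} {C : ℝ}

lemma abs_pe_le {h : ℕ → ℝ} {t : ℝ} (ht : 0 ≤ t) (hb : ∀ n, |h n| ≤ C) : |pe t h| ≤ C := by
  have := abs_pe_le_affine (g := h) (a := C) (b := 0) (fun n => by simpa using hb n) ht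
  simpa using this

lemma abs_pe_sub_le {h : ℕ → ℝ} (hh : Gr h) (hb : ∀ n, |h (n + 1) - h n| ≤ C) {s t : ℝ}
    (hs : 0 ≤ s) (hst : s ≤ t) : |pe t h - pe s h| ≤ C * (t - s) := by
  have key := Convex.norm_image_sub_le_of_norm_hasDerivWithin_le (𝕜 := ℝ)
    (f := fun u => pe u h) (f' := fun u => pe u fun n => h (n + 1) - h n) (C := C)
    (fun u _ => (hasDerivAt_pe hh u).hasDerivWithinAt)
    (fun u hu => abs_pe_le (hs.trans hu.1) hb) (convex_Icc s t) (Set.left_mem_Icc.2 hst)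
    (Set.right_mem_Icc.2 hst)
  simpa [Real.norm_eq_abs, abs_of_nonneg (sub_nonneg.2 hst)] using key

/-- The second order error of one step. -/
lemma abs_pe_step_le {h : ℕ → ℝ} (hh : Gr h) (hb : ∀ n, |h (n + 1) - h n| ≤ C) {s u t : ℝ}
    (hs : 0 ≤ s) (hu : s ≤ u) (hut : u ≤ t) :
    |pe t h - pe s h - (t - s) * pe u (fun n => h (n + 1) - h n)| ≤ 2 * C * (t - s) ^ 2 := by
  set d : ℕ → ℝ := fun n => h (n + 1) - h n with hd
  have hgd : Gr d := (hh.shift 1).sub hh
  have hdd : ∀ n, |d (n + 1) - d n| ≤ 2 * C := fun n => (abs_sub _ _).trans (by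
    linarith [hb (n + 1), hb n])
  have key := Convex.norm_image_sub_le_of_norm_hasDerivWithin_le (𝕜 := ℝ)
    (f := fun v => pe v h - v * pe u d) (f' := fun v => pe v d - pe u d) (C := 2 * C * (t - s))
    (fun v _ => (((hasDerivAt_pe hh v).sub ((hasDerivAt_id v).mul_const (pe u d))).congr_deriv
      (by rw [one_mul])).hasDerivWithinAt)
    (fun v hv => ?_) (convex_Icc s t) (Set.left_mem_Icc.2 (hu.trans hut))
    (Set.right_mem_Icc.2 (hu.trans hut))
  · rw [Real.norm_eq_abs, Real.norm_eq_abs, abs_of_nonneg (sub_nonneg.2 (hu.trans hut))] at key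
    calc |pe t h - pe s h - (t - s) * pe u d|
        = |(pe t h - t * pe u d) - (pe s h - s * pe u d)| := by ring_nf
      _ ≤ 2 * C * (t - s) * (t - s) := key
      _ = 2 * C * (t - s) ^ 2 := by ring
  · have hC : 0 ≤ 2 * C := (abs_nonneg _).trans (hdd 0)
    rw [Real.norm_eq_abs]
    rcases le_total u v with h' | h'
    · exact (abs_pe_sub_le hgd hdd (hs.trans hu) h').trans
        (mul_le_mul_of_nonneg_left (by linarith [hv.2]) hC)
    · rw [abs_sub_comm]
      exact (abs_pe_sub_le hgd hdd (hs.trans hv.1) h').trans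
        (mul_le_mul_of_nonneg_left (by linarith [hv.1]) hC)

/-- The double expectation. -/
noncomputable def pe2 (g : ℕ → ℕ → ℝ) (a b : ℝ) : ℝ := pe a fun m => pe b (g m)

lemma pe2_step {κ : ℝ} (hκ : 0 ≤ κ) (hg : Gr2 g) (h1 : ∀ m n, |g (m + 1) n - g m n| ≤ C)
    (h2 : ∀ m n, |g m (n + 1) - g m n| ≤ C)
    (hle : ∀ m n, g (m + 1) n - g m n ≤ κ * (g m (n + 1) - g m n)) {a b δ : ℝ} (ha : 0 ≤ a)
    (hb : κ * δ ≤ b) (hδ : 0 ≤ δ) :
    pe2 g (a + δ) (b - κ * δ) - pe2 g a b ≤ 2 * C * δ ^ 2 * (1 + κ ^ 2) := by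
  set b' := b - κ * δ with hb'
  have hb0 : 0 ≤ b' := sub_nonneg.2 hb
  have hbb : b' ≤ b := sub_le_self b (mul_nonneg hκ hδ)
  have hG : Gr fun m => pe b' (g m) := hg.pe_right b'
  have hd1 : ∀ m, pe b' (g (m + 1)) - pe b' (g m) = pe b' fun n => g (m + 1) n - g m n :=
    fun m => (pe_sub (hg.right (m + 1)) (hg.right m) b').symm
  have hA := abs_pe_step_le hG (fun m => by rw [hd1]; exact abs_pe_le hb0 (h1 m)) (t := a + δ) ha
    le_rfl (le_add_of_nonneg_right hδ)
  have hB : ∀ m, |pe b (g m) - pe b' (g m) - (b - b') * pe b' fun n => g m (n + 1) - g m n| ≤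
      2 * C * (b - b') ^ 2 := fun m => abs_pe_step_le (hg.right m) (h2 m) hb0 le_rfl hbb
  obtain ⟨A1, A2⟩ := abs_le.1 hA
  have hmono : pe a (fun m => pe b' fun n => g (m + 1) n - g m n) ≤
      κ * pe a fun m => pe b' fun n => g m (n + 1) - g m n := by
    have hgk : ∀ m, Gr fun n => g (m + 1) n - g m n := fun m => (hg.right _).sub (hg.right m)
    have hgn : ∀ m, Gr fun n => g m (n + 1) - g m n := fun m =>
      ((hg.right m).shift 1).sub (hg.right m)
    rw [← pe_smul]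
    refine pe_mono (Gr.of_bounded (C := C) fun m => abs_pe_le hb0 (h1 m))
      ((Gr.of_bounded (C := C) fun m => abs_pe_le hb0 (h2 m)).smul κ) ha fun m => ?_
    rw [← pe_smul]
    exact pe_mono (hgk m) ((hgn m).smul κ) hb0 fun n => hle m n
  have hsum : |pe a (fun m => pe b (g m)) - pe a (fun m => pe b' (g m)) -
      (b - b') * pe a (fun m => pe b' fun n => g m (n + 1) - g m n)| ≤ 2 * C * (b - b') ^ 2 := by
    have hgd : Gr fun m => (b - b') * pe b' fun n => g m (n + 1) - g m n :=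
      (Gr.of_bounded (C := C) fun m => abs_pe_le hb0 (h2 m)).smul _
    rw [← pe_smul, ← pe_sub (hg.pe_right b) hG,
      ← pe_sub ((hg.pe_right b).sub hG) hgd]
    exact abs_pe_le ha hB
  obtain ⟨B1, B2⟩ := abs_le.1 hsum
  have hm2 := mul_le_mul_of_nonneg_left hmono hδ
  have e1 : a + δ - a = δ := by ring
  have e2 : b - b' = κ * δ := by ring
  simp only [hd1, e1] at A2
  rw [e2] at B1
  simp only [pe2]
  linarith

/-- Interpolation along the segment from `(0, κ T)` to `(T, 0)`. -/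
theorem pe_interpolation {κ T : ℝ} (hκ : 0 ≤ κ) (hT : 0 ≤ T) (hg : Gr2 g)
    (h1 : ∀ m n, |g (m + 1) n - g m n| ≤ C) (h2 : ∀ m n, |g m (n + 1) - g m n| ≤ C)
    (hle : ∀ m n, g (m + 1) n - g m n ≤ κ * (g m (n + 1) - g m n)) :
    pe T (fun m => g m 0) ≤ pe (κ * T) (g 0) := by
  have hC : 0 ≤ C := (abs_nonneg _).trans (h1 0 0)
  suffices h : ∀ J : ℕ, 0 < J →
      pe T (fun m => g m 0) - pe (κ * T) (g 0) ≤ 2 * C * T ^ 2 * (1 + κ ^ 2) / J by
    by_contra hlt
    rw [not_le] at hlt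
    set e := pe T (fun m => g m 0) - pe (κ * T) (g 0) with he
    have he0 : 0 < e := sub_pos.2 hlt
    obtain ⟨J, hJ⟩ := exists_nat_gt (2 * C * T ^ 2 * (1 + κ ^ 2) / e)
    have hJ0 : (0 : ℝ) < J := lt_of_le_of_lt (by positivity) hJ
    have h' := h J (Nat.cast_pos.1 hJ0)
    rw [div_lt_iff₀ he0] at hJ
    rw [le_div_iff₀ hJ0] at h'
    linarith
  intro J hJ
  have hJ' : (0 : ℝ) < J := Nat.cast_pos.2 hJ
  set δ := T / J with hδdef
  have hδ : 0 ≤ δ := div_nonneg hT hJ'.le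
  have key : ∀ i : ℕ, i ≤ J → pe2 g (i * δ) (κ * T - κ * (i * δ)) - pe2 g 0 (κ * T) ≤
      i * (2 * C * δ ^ 2 * (1 + κ ^ 2)) := by
    intro i hi
    induction i with
    | zero => simp
    | succ i ih =>
      have hi' : ((i : ℝ) + 1) * δ ≤ T := by
        calc ((i : ℝ) + 1) * δ ≤ (J : ℝ) * δ :=
              mul_le_mul_of_nonneg_right (by exact_mod_cast hi) hδ
          _ = T := by rw [hδdef, mul_comm, div_mul_cancel₀ T hJ'.ne']
      have := pe2_step hκ hg h1 h2 hle (a := i * δ) (b := κ * T - κ * (i * δ)) (δ := δ)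
        (by positivity) (by linarith [mul_le_mul_of_nonneg_left hi' hκ]) hδ
      have ih' := ih (by omega)
      push_cast
      rw [show κ * T - κ * (i * δ) - κ * δ = κ * T - κ * (((i : ℝ) + 1) * δ) by ring,
        show (i : ℝ) * δ + δ = ((i : ℝ) + 1) * δ by ring] at this
      linarith
  have h := key J le_rfl
  have e : (J : ℝ) * δ = T := by rw [hδdef, mul_comm, div_mul_cancel₀ T hJ'.ne']
  rw [e, sub_self] at h
  simp only [pe2, pe_zero] at h
  refine h.trans (le_of_eq ?_)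
  rw [hδdef]
  field_simp

end Vale.Agent.P168.Up
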