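import Vale.Agent.P168.Upper.Bridge
import Vale.Agent.P168.Upper.Path

/-!
Random configurations of `k` clauses on old spins and `n` cavity factors, and the inequality between
the two increments of the mean log partition function.
-/

namespace Vale.Agent.P168.Up

open MeasureTheory Finset Function

/-! ### Product laws -/

section Laws

variable {α β γ δ : Type} [MeasurableSpace α] [MeasurableSpace β] [MeasurableSpace γ]
  [MeasurableSpace δ]

lemma mp_int {μ : Measure α} {ν : Measure β} {f : α → β} (h : MeasurePreserving f μ ν)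
    {g : β → ℝ} (hg : Integrable g ν) : Integrable (fun x => g (f x)) μ :=
  (h.integrable_comp hg.aestronglyMeasurable).2 hg

lemma mp_integral {μ : Measure α} {ν : Measure β} {f : α → β} (h : MeasurePreserving f μ ν)
    {g : β → ℝ} (hg : AEStronglyMeasurable g ν) : ∫ x, g (f x) ∂μ = ∫ y, g y ∂ν := by
  rw [← h.map_eq] at hg ⊢
  exact (integral_map h.measurable.aemeasurable hg).symm

variable [Fintype γ] [MeasurableSingletonClass γ] [Nonempty γ]

/-- Averaging out a finite coordinate. -/
lemma integral_fin_fibre (μ : Measure α) (ν : Measure β) [IsProbabilityMeasure μ]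
    [IsProbabilityMeasure ν] {F : α × (β × γ) → ℝ}
    (hF : Integrable F (μ.prod (ν.prod (finLaw γ)))) :
    Integrable (fun y : α × β => avg fun c => F (y.1, (y.2, c))) (μ.prod ν) ∧
      ∫ y, avg (fun c => F (y.1, (y.2, c))) ∂μ.prod ν = ∫ z, F z ∂μ.prod (ν.prod (finLaw γ)) := by
  have := isProbabilityMeasure_finLaw γ
  have hmp := measurePreserving_prodAssoc μ ν (finLaw γ)
  have h := mp_int hmp hF
  have e : ∀ y : α × β, ∫ c, F (MeasurableEquiv.prodAssoc (y, c)) ∂finLaw γ =
      avg fun c => F (y.1, (y.2, c)) := fun y => integral_finLaw _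
  refine ⟨h.integral_prod_left.congr (.of_forall e), ?_⟩
  rw [← mp_integral hmp hF.aestronglyMeasurable, integral_prod _ h]
  exact integral_congr_ae (.of_forall fun y => (e y).symm)

omit [Fintype γ] [MeasurableSingletonClass γ] [Nonempty γ] in
/-- Integrating out a last coordinate. -/
lemma integral_last (μ : Measure α) (ν : Measure β) (η : Measure δ) [IsProbabilityMeasure μ]
    [IsProbabilityMeasure ν] [IsProbabilityMeasure η] {F : α × (β × δ) → ℝ}
    (hF : Integrable F (μ.prod (ν.prod η))) :
    Integrable (fun y : α × β => ∫ o, F (y.1, (y.2, o)) ∂η) (μ.prod ν) ∧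
      ∫ y, (∫ o, F (y.1, (y.2, o)) ∂η) ∂μ.prod ν = ∫ z, F z ∂μ.prod (ν.prod η) := by
  have hmp := measurePreserving_prodAssoc μ ν η
  have h := mp_int hmp hF
  exact ⟨h.integral_prod_left, by
    rw [← mp_integral hmp hF.aestronglyMeasurable, integral_prod _ h]; rfl⟩

omit [Nonempty γ] [MeasurableSingletonClass γ] [MeasurableSpace γ] in
lemma integral_avg {μ : Measure α} {F : γ → α → ℝ} (hF : ∀ c, Integrable (F c) μ) :
    ∫ x, avg (fun c => F c x) ∂μ = avg fun c => ∫ x, F c x ∂μ := by
  simp only [avg]
  rw [integral_div, integral_finsetSum _ fun c _ => hF c]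

omit [Fintype γ] [MeasurableSingletonClass γ] [Nonempty γ] [MeasurableSpace γ] in
lemma integral_comb {μ : Measure α} {f g u v : α → ℝ} (hf : Integrable f μ) (hg : Integrable g μ)
    (hu : Integrable u μ) (hv : Integrable v μ) (a b : ℝ) :
    Integrable (fun x => (f x - u x) - a * (g x - u x) + b * v x) μ ∧
      ∫ x, ((f x - u x) - a * (g x - u x) + b * v x) ∂μ =
        ((∫ x, f x ∂μ) - ∫ x, u x ∂μ) - a * ((∫ x, g x ∂μ) - ∫ x, u x ∂μ) + b * ∫ x, v x ∂μ := by
  have h1 : Integrable (fun x => f x - u x) μ := hf.sub hu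
  have h2 : Integrable (fun x => a * (g x - u x)) μ := (hg.sub hu).const_mul a
  have h12 : Integrable (fun x => (f x - u x) - a * (g x - u x)) μ := h1.sub h2
  refine ⟨h12.add (hv.const_mul b), ?_⟩
  rw [integral_add h12 (hv.const_mul b), integral_sub h1 h2, integral_sub hf hu,
    integral_const_mul, integral_const_mul, integral_sub hg hu]

omit [MeasurableSingletonClass γ] [MeasurableSpace γ] in
lemma avg_sub_const (F : γ → ℝ) (c : ℝ) : avg (fun a => F a - c) = avg F - c := by
  rw [← avg_sub, avg_const]

end Laws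

lemma int_pi_sum {α : Type} [MeasurableSpace α] (n : ℕ) {μ : Measure α} [IsProbabilityMeasure μ]
    {g : α → ℝ} (hg : Integrable g μ) :
    Integrable (fun x : Fin n → α => ∑ c, g (x c)) (Measure.pi fun _ => μ) :=
  integrable_finsetSum _ fun c _ => mp_int (measurePreserving_eval (fun _ => μ) c) hg

lemma int_three {α β γ : Type} [MeasurableSpace α] [MeasurableSpace β] [MeasurableSpace γ]
    {μ : Measure α} {ν : Measure β} {η : Measure γ} [IsProbabilityMeasure μ]
    [IsProbabilityMeasure ν] [IsProbabilityMeasure η] {f : α → ℝ} {g : β → ℝ} {h : γ → ℝ}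
    (hf : Integrable f μ) (hg : Integrable g ν) (hh : Integrable h η) :
    Integrable (fun z : α × (β × γ) => g z.2.1 + f z.1 + h z.2.2) (μ.prod (ν.prod η)) :=
  (((hg.comp_fst η).comp_snd μ).add (hf.comp_fst (ν.prod η))).add ((hh.comp_snd ν).comp_snd μ)

/-- One more point in front. -/
lemma mp_cons {α : Type} [MeasurableSpace α] (μ : Measure α) [IsProbabilityMeasure μ] (n : ℕ) :
    MeasurePreserving (fun z : α × (Fin n → α) => (Fin.cons z.1 z.2 : Fin (n + 1) → α))
      (μ.prod (Measure.pi fun _ => μ)) (Measure.pi fun _ => μ) := by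
  have h := (measurePreserving_piFinSuccAbove (fun _ : Fin (n + 1) => μ) 0).symm
  refine (congrArg (fun f => MeasurePreserving f _ _) (funext fun z => ?_)).mp h
  simp [MeasurableEquiv.piFinSuccAbove, Fin.consEquiv]

/-! ### Configurations -/

variable (t : Trial) {N K : ℕ}

/-- One cavity clause: parameters, position, outer variables of its messages. -/
abbrev DT (K : ℕ) := (Param K × Fin K) × (Fin K → ℝ)

/-- Fields, `k` clauses on old spins, `n` cavity clauses with their sites. -/
abbrev Cfg (K N k n : ℕ) :=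
  (Fin N → ℝ) × ((Fin k → Param K × (Fin K → Fin N)) × (Fin n → DT K × Fin N))

/-- The logarithm of the factor of one cavity clause. -/
noncomputable def cavLog (d : DT K) (e : Bool) (w : Fin t.r → Fin K → ℝ) : ℝ :=
  Real.log (gFac d.1.1 d.1.2 e (msgs t d.2 w))

/-- The potential of a configuration. -/
noncomputable def potConf {k n : ℕ} (z : Cfg K N k n) : Pot t (Fin n × Fin K) N := fun w σ =>
  (∑ c, theta (z.2.1 c).1 fun j => σ ((z.2.1 c).2 j)) + (∑ v, z.1 v * spin (σ v)) +
    ∑ c, cavLog t (z.2.2 c).1 (σ (z.2.2 c).2) fun q j => w q (c, j)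

/-- A bound of the potential. -/
noncomputable def confB {k n : ℕ} (z : Cfg K N k n) : ℝ :=
  (∑ c, supTheta (z.2.1 c).1) + (∑ v, |z.1 v|) + ∑ c, supTheta (z.2.2 c).1.1.1

lemma confB_nonneg {k n : ℕ} (z : Cfg K N k n) : 0 ≤ confB z := by
  have h1 : 0 ≤ ∑ c, supTheta (z.2.1 c).1 := sum_nonneg fun c _ => supTheta_nonneg _
  have h2 : 0 ≤ ∑ v, |z.1 v| := sum_nonneg fun v _ => abs_nonneg _
  have h3 : 0 ≤ ∑ c, supTheta (z.2.2 c).1.1.1 := sum_nonneg fun c _ => supTheta_nonneg _
  unfold confB; linarith

lemma measurable_cavLog (e : Bool) :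
    Measurable fun x : DT K × (Fin t.r → Fin K → ℝ) => cavLog t x.1 e x.2 := by
  have h : Measurable fun y : (Param K × (Fin K → ℝ)) × Fin K => gFac y.1.1 y.2 e y.1.2 :=
    measurable_from_prod_countable_left
      (f := fun y : (Param K × (Fin K → ℝ)) × Fin K => gFac y.1.1 y.2 e y.1.2)
      fun l => measurable_gFac l e
  exact (h.comp ((((measurable_fst.comp measurable_fst).comp measurable_fst).prodMk
    ((measurable_msgs t).comp ((measurable_snd.comp measurable_fst).prodMk measurable_snd))).prodMk
      ((measurable_snd.comp measurable_fst).comp measurable_fst))).log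

lemma measurable_thetaAt (σ : Fin N → Bool) :
    Measurable fun q : Param K × (Fin K → Fin N) => theta q.1 fun j => σ (q.2 j) :=
  measurable_from_prod_countable_left
    (f := fun q : Param K × (Fin K → Fin N) => theta q.1 fun j => σ (q.2 j))
    fun i => measurable_theta (fun j => σ (i j))

lemma measurable_cavAt (σ : Fin N → Bool) :
    Measurable fun y : (DT K × (Fin t.r → Fin K → ℝ)) × Fin N =>
      cavLog t y.1.1 (σ y.2) y.1.2 :=
  measurable_from_prod_countable_left
    (f := fun y : (DT K × (Fin t.r → Fin K → ℝ)) × Fin N => cavLog t y.1.1 (σ y.2) y.1.2)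
    fun v => measurable_cavLog t (σ v)

lemma measurable_potConf {k n : ℕ} (σ : Fin N → Bool) :
    Measurable fun x : Cfg K N k n × (Fin t.r → Fin n × Fin K → ℝ) => potConf t x.1 x.2 σ := by
  unfold potConf
  refine (Measurable.add ?_ ?_).add ?_
  · refine Finset.measurable_sum _ fun c _ => ?_
    have h := measurable_thetaAt (K := K) σ
    have hq : Measurable fun x : Cfg K N k n × (Fin t.r → Fin n × Fin K → ℝ) => x.1.2.1 c := by
      fun_prop
    exact Measurable.comp (g := fun q : Param K × (Fin K → Fin N) => theta q.1 fun j => σ (q.2 j))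
      (f := fun x : Cfg K N k n × (Fin t.r → Fin n × Fin K → ℝ) => x.1.2.1 c) h hq
  · refine Finset.measurable_sum _ fun v _ => ?_
    exact ((measurable_pi_apply v).comp (measurable_fst.comp measurable_fst)).mul_const _
  · refine Finset.measurable_sum _ fun c _ => ?_
    have h := measurable_cavAt t (K := K) σ
    have hz : Measurable fun x : Cfg K N k n × (Fin t.r → Fin n × Fin K → ℝ) =>
        (((x.1.2.2 c).1, fun q j => x.2 q (c, j)), (x.1.2.2 c).2) := by
      refine (Measurable.prodMk ?_ ?_).prodMk ?_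
      · fun_prop
      · fun_prop
      · fun_prop
    exact Measurable.comp (g := fun y : (DT K × (Fin t.r → Fin K → ℝ)) × Fin N =>
        cavLog t y.1.1 (σ y.2) y.1.2)
      (f := fun x : Cfg K N k n × (Fin t.r → Fin n × Fin K → ℝ) =>
        (((x.1.2.2 c).1, fun q j => x.2 q (c, j)), (x.1.2.2 c).2)) h hz

lemma regPot_potConf {k n : ℕ} (z : Cfg K N k n) : RegPot t (potConf t z) (confB z) := by
  refine ⟨fun σ => Measurable.comp
    (g := fun x : Cfg K N k n × (Fin t.r → Fin n × Fin K → ℝ) => potConf t x.1 x.2 σ)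
    (f := fun w : Fin t.r → Fin n × Fin K → ℝ => (z, w))
    (measurable_potConf t σ) (measurable_const.prodMk measurable_id), fun w σ => ?_⟩
  unfold potConf confB
  refine (abs_add_le _ _).trans (add_le_add ((abs_add_le _ _).trans (add_le_add ?_ ?_)) ?_)
  · exact (abs_sum_le_sum_abs _ _).trans (sum_le_sum fun c _ => abs_theta_le _ _)
  · refine (abs_sum_le_sum_abs _ _).trans (sum_le_sum fun v _ => ?_)
    rw [abs_mul, abs_spin, mul_one]
  · exact (abs_sum_le_sum_abs _ _).trans (sum_le_sum fun c _ =>
      abs_log_gFac_le _ _ _ (abs_msgs_le t _ _))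

lemma measurable_lpot_potConf {k n : ℕ} : Measurable fun z : Cfg K N k n => lpot t (potConf t z) :=
  measurable_lpot t fun σ => measurable_potConf t σ

/-- One more clause on old spins. -/
def addQ {k n : ℕ} (x : Cfg K N k n × (Param K × (Fin K → Fin N))) : Cfg K N (k + 1) n :=
  (x.1.1, (Fin.cons x.2 x.1.2.1, x.1.2.2))

/-- One more cavity clause. -/
def addP {k n : ℕ} (x : Cfg K N k n × (DT K × Fin N)) : Cfg K N k (n + 1) :=
  (x.1.1, (x.1.2.1, Fin.cons x.2 x.1.2.2))

/-- The messages of one more clause. -/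
def consIdx (n K : ℕ) : Fin (n + 1) × Fin K ≃ (Fin n × Fin K) ⊕ Fin K where
  toFun x := Fin.cases (Sum.inr x.2) (fun c => Sum.inl (c, x.2)) x.1
  invFun := Sum.elim (fun x => (x.1.succ, x.2)) fun j => (0, j)
  left_inv := by
    rintro ⟨c, j⟩
    cases c using Fin.cases <;> simp
  right_inv := by rintro (⟨c, j⟩ | j) <;> simp

lemma lpot_addQ {k n : ℕ} (x : Cfg K N k n × (Param K × (Fin K → Fin N))) :
    lpot t (potConf t (addQ x)) = lpot t (addCl t (potConf t x.1) x.2.1 x.2.2) := by
  congr 1
  funext w σ
  simp only [potConf, addCl, addQ, Fin.sum_univ_succ, Fin.cons_zero, Fin.cons_succ]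
  ring

lemma lpot_addP {k n : ℕ} (x : Cfg K N k n × (DT K × Fin N)) :
    lpot t (potConf t (addP x)) =
      lpot t (addCav t (potConf t x.1) x.2.1.1.1 x.2.1.1.2 x.2.2 x.2.1.2) := by
  rw [lpot, lpot, ← collapse_relabel (consIdx n K) t.m
    (fun w => avg fun σ => Real.exp (potConf t (addP x) w σ))]
  congr 2
  funext w
  congr 1
  funext σ
  congr 1
  simp only [potConf, addCav, addP, Fin.sum_univ_succ, Fin.cons_zero, Fin.cons_succ, cavLog,
    consIdx, Equiv.coe_fn_mk, Fin.cases_zero, Fin.cases_succ]
  ring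

/-- The mean log partition function of one factor of `V`. -/
noncomputable def vOne (M : Model) : ℝ :=
  ∫ p, (∫ ω0, lpot t (potOne t p ω0) ∂unifLaw (Fin M.K)) ∂M.clauseLaw

variable (M : Model)

/-- The law of one cavity clause. -/
noncomputable def dLaw : Measure (DT M.K) :=
  (M.clauseLaw.prod (finLaw (Fin M.K))).prod (unifLaw (Fin M.K))

/-- The law of a configuration. -/
noncomputable def cfgLaw (N k n : ℕ) : Measure (Cfg M.K N k n) :=
  (Measure.pi fun _ : Fin N => M.hLaw).prod
    ((Measure.pi fun _ : Fin k => M.clauseLaw.prod (finLaw (Fin M.K → Fin N))).prod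
      (Measure.pi fun _ : Fin n => (dLaw M).prod (finLaw (Fin N))))

/-- The mean log partition function. -/
noncomputable def meanW (N k n : ℕ) : ℝ := ∫ z, lpot t (potConf t z) ∂cfgLaw M N k n

variable {M} (hM : M.Valid)
include hM

lemma prob_dLaw : IsProbabilityMeasure (dLaw M) := by
  have := hM.clause_prob
  have : Nonempty (Fin M.K) := ⟨⟨0, by have := hM.two_le; omega⟩⟩
  have := isProbabilityMeasure_finLaw (Fin M.K)
  unfold dLaw; infer_instance

lemma prob_cfgLaw (hN : 0 < N) (k n : ℕ) : IsProbabilityMeasure (cfgLaw M N k n) := by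
  have := hM.clause_prob
  have := hM.h_prob
  have := prob_dLaw hM
  have : Nonempty (Fin N) := ⟨⟨0, hN⟩⟩
  have := isProbabilityMeasure_finLaw (Fin N)
  have := isProbabilityMeasure_finLaw (Fin M.K → Fin N)
  unfold cfgLaw; infer_instance

lemma mp_addQ (hN : 0 < N) (k n : ℕ) :
    MeasurePreserving addQ ((cfgLaw M N k n).prod (M.clauseLaw.prod (finLaw (Fin M.K → Fin N))))
      (cfgLaw M N (k + 1) n) := by
  have := hM.clause_prob
  have := hM.h_prob
  have := prob_dLaw hM
  have : Nonempty (Fin N) := ⟨⟨0, hN⟩⟩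
  have := isProbabilityMeasure_finLaw (Fin N)
  have := isProbabilityMeasure_finLaw (Fin M.K → Fin N)
  set μH := Measure.pi fun _ : Fin N => M.hLaw
  set μq := M.clauseLaw.prod (finLaw (Fin M.K → Fin N))
  set B := Measure.pi fun _ : Fin k => μq
  set C := Measure.pi fun _ : Fin n => (dLaw M).prod (finLaw (Fin N))
  have g := ((mp_cons μq k).prod (MeasurePreserving.id C)).comp
    (((measurePreserving_prodAssoc μq B C).symm _).comp
      (Measure.measurePreserving_swap (μ := B.prod C) (ν := μq)))
  have h := ((MeasurePreserving.id μH).prod g).comp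
    (measurePreserving_prodAssoc μH (B.prod C) μq)
  exact h

lemma mp_addP (hN : 0 < N) (k n : ℕ) :
    MeasurePreserving addP ((cfgLaw M N k n).prod ((dLaw M).prod (finLaw (Fin N))))
      (cfgLaw M N k (n + 1)) := by
  have := hM.clause_prob
  have := hM.h_prob
  have := prob_dLaw hM
  have : Nonempty (Fin N) := ⟨⟨0, hN⟩⟩
  have := isProbabilityMeasure_finLaw (Fin N)
  have := isProbabilityMeasure_finLaw (Fin M.K → Fin N)
  set μH := Measure.pi fun _ : Fin N => M.hLaw
  set μp := (dLaw M).prod (finLaw (Fin N))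
  set B := Measure.pi fun _ : Fin k => M.clauseLaw.prod (finLaw (Fin M.K → Fin N))
  set C := Measure.pi fun _ : Fin n => μp
  have g := ((MeasurePreserving.id B).prod ((mp_cons μp n).comp
    (Measure.measurePreserving_swap (μ := C) (ν := μp)))).comp
    (measurePreserving_prodAssoc B C μp)
  have h := ((MeasurePreserving.id μH).prod g).comp
    (measurePreserving_prodAssoc μH (B.prod C) μp)
  exact h

lemma integrable_confB (hN : 0 < N) (k n : ℕ) :
    Integrable (confB (K := M.K)) (cfgLaw M N k n) := by
  have := hM.clause_prob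
  have := hM.h_prob
  have := prob_dLaw hM
  have : Nonempty (Fin N) := ⟨⟨0, hN⟩⟩
  have : Nonempty (Fin M.K) := ⟨⟨0, by have := hM.two_le; omega⟩⟩
  have := isProbabilityMeasure_finLaw (Fin N)
  have := isProbabilityMeasure_finLaw (Fin M.K)
  have := isProbabilityMeasure_finLaw (Fin M.K → Fin N)
  have hsup : Integrable (supTheta (K := M.K)) M.clauseLaw := hM.theta_int
  have sB := int_pi_sum k (μ := M.clauseLaw.prod (finLaw (Fin M.K → Fin N)))
    (g := fun x => supTheta x.1) (hsup.comp_fst _)
  have sA := int_pi_sum N (μ := M.hLaw) (g := fun h => |h|) hM.h_int.abs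
  have sC := int_pi_sum n (μ := (dLaw M).prod (finLaw (Fin N)))
    (g := fun x => supTheta x.1.1.1)
    (Integrable.comp_fst (f := fun d : DT M.K => supTheta d.1.1)
      (Integrable.comp_fst (f := fun d : Param M.K × Fin M.K => supTheta d.1)
        (hsup.comp_fst (finLaw (Fin M.K))) (unifLaw (Fin M.K))) (finLaw (Fin N)))
  exact int_three sA sB sC

lemma integrable_lpot_potConf (hN : 0 < N) (k n : ℕ) :
    Integrable (fun z => lpot t (potConf t z)) (cfgLaw M N k n) :=
  (integrable_confB hM hN k n).mono' (measurable_lpot_potConf t).aestronglyMeasurable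
    (.of_forall fun z => by
      rw [Real.norm_eq_abs]; exact abs_lpot_le t (regPot_potConf t z) (confB_nonneg z))

omit hM in
lemma abs_addQ_sub_le {k n : ℕ} (x : Cfg K N k n × (Param K × (Fin K → Fin N))) :
    |lpot t (potConf t (addQ x)) - lpot t (potConf t x.1)| ≤ supTheta x.2.1 := by
  rw [lpot_addQ]
  refine abs_lpot_sub_le t ((regPot_potConf t x.1).addCl _ _)
    ⟨(regPot_potConf t x.1).1, fun w σ => ((regPot_potConf t x.1).2 w σ).trans
      (le_add_of_nonneg_right (supTheta_nonneg _))⟩ (supTheta_nonneg _) fun w σ => ?_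
  simp only [addCl, add_sub_cancel_left]
  exact abs_theta_le _ _

omit hM in
lemma abs_addP_sub_le {k n : ℕ} (x : Cfg K N k n × (DT K × Fin N)) :
    |lpot t (potConf t (addP x)) - lpot t (potConf t x.1)| ≤ supTheta x.2.1.1.1 := by
  have hG := regPot_potConf t x.1
  rw [lpot_addP, ← lpot_addCav_nullP t hG x.2.1.1.2 x.2.2 x.2.1.2]
  refine abs_lpot_sub_le t (hG.addCav _ _ _ _) ⟨(hG.addCav nullP _ _ _).1, fun w σ => ?_⟩
    (supTheta_nonneg _) fun w σ => ?_
  · simp only [addCav, log_gFac_nullP, add_zero]
    exact (hG.2 _ σ).trans (le_add_of_nonneg_right (supTheta_nonneg _))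
  · simp only [addCav, log_gFac_nullP, add_zero, add_sub_cancel_left]
    exact abs_log_gFac_le _ _ _ (abs_msgs_le t _ _)

/-- The increments are bounded. -/
lemma abs_meanW_succ_le (hN : 0 < N) (k n : ℕ) :
    |meanW t M N (k + 1) n - meanW t M N k n| ≤ ∫ p, supTheta p ∂M.clauseLaw ∧
      |meanW t M N k (n + 1) - meanW t M N k n| ≤ ∫ p, supTheta p ∂M.clauseLaw := by
  have := hM.clause_prob
  have := prob_dLaw hM
  have : Nonempty (Fin N) := ⟨⟨0, hN⟩⟩
  have : Nonempty (Fin M.K) := ⟨⟨0, by have := hM.two_le; omega⟩⟩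
  have := isProbabilityMeasure_finLaw (Fin N)
  have := isProbabilityMeasure_finLaw (Fin M.K)
  have := isProbabilityMeasure_finLaw (Fin M.K → Fin N)
  have := prob_cfgLaw hM hN k n
  have hsup : Integrable (supTheta (K := M.K)) M.clauseLaw := hM.theta_int
  have key : ∀ {β : Type} [MeasurableSpace β] {ν : Measure β} [IsProbabilityMeasure ν] {k' n' : ℕ}
      {add : Cfg M.K N k n × β → Cfg M.K N k' n'} {π : β → Param M.K},
      MeasurePreserving add ((cfgLaw M N k n).prod ν) (cfgLaw M N k' n') →
      MeasurePreserving π ν M.clauseLaw →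
      (∀ x, |lpot t (potConf t (add x)) - lpot t (potConf t x.1)| ≤ supTheta (π x.2)) →
      |meanW t M N k' n' - meanW t M N k n| ≤ ∫ p, supTheta p ∂M.clauseLaw := by
    intro β _ ν _ k' n' add π hadd hπ h
    have hmp : MeasurePreserving (fun x : Cfg M.K N k n × β => π x.2)
        ((cfgLaw M N k n).prod ν) M.clauseLaw := hπ.comp measurePreserving_snd
    have i1 := mp_int hadd (integrable_lpot_potConf t hM hN k' n')
    have i2 := mp_int (measurePreserving_fst (μ := cfgLaw M N k n) (ν := ν))
      (integrable_lpot_potConf t hM hN k n)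
    rw [meanW, meanW, ← mp_integral hadd (measurable_lpot_potConf t).aestronglyMeasurable,
      ← mp_integral (measurePreserving_fst (μ := cfgLaw M N k n) (ν := ν))
        (measurable_lpot_potConf t).aestronglyMeasurable,
      ← integral_sub i1 i2, ← mp_integral hmp hsup.aestronglyMeasurable]
    exact abs_integral_le_integral_abs.trans
      (integral_mono (i1.sub i2).abs (mp_int hmp hsup) h)
  exact ⟨key (mp_addQ hM hN k n) measurePreserving_fst (abs_addQ_sub_le t),
    key (mp_addP hM hN k n) (measurePreserving_fst.comp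
      (measurePreserving_fst.comp measurePreserving_fst)) (abs_addP_sub_le t)⟩

lemma integrable_vInt :
    Integrable (fun p => ∫ ω0, lpot t (potOne t p ω0) ∂unifLaw (Fin M.K)) M.clauseLaw := by
  have := hM.clause_prob
  set V := fun p : Param M.K => ∫ ω0, lpot t (potOne t p ω0) ∂unifLaw (Fin M.K)
  have hm : Measurable V := (StronglyMeasurable.integral_prod_right'
    (f := fun z : Param M.K × (Fin M.K → ℝ) => lpot t (potOne t z.1 z.2))
    (measurable_potOne_lpot measurable_fst measurable_snd).stronglyMeasurable).measurable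
  refine (hM.theta_int : Integrable (supTheta (K := M.K)) M.clauseLaw).mono'
    hm.aestronglyMeasurable (.of_forall fun p => ?_)
  rw [Real.norm_eq_abs]
  refine abs_integral_le_integral_abs.trans ?_
  have := integral_mono (integrable_potOne (t := t) p).abs (integrable_const (supTheta p))
    fun ω0 => abs_lpot_le t (regPot_potOne p ω0) (supTheta_nonneg p)
  simp only [integral_const, probReal_univ, one_smul] at this
  exact this

/-- One more clause on old spins costs no more than `K` cavity clauses less `K - 1` factors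
of `V`. -/
theorem meanW_step (hN : 0 < N) (k n : ℕ) :
    meanW t M N (k + 1) n - meanW t M N k n + ((M.K : ℝ) - 1) * vOne t M ≤
      M.K * (meanW t M N k (n + 1) - meanW t M N k n) := by
  have := hM.clause_prob
  have := prob_dLaw hM
  have : Nonempty (Fin N) := ⟨⟨0, hN⟩⟩
  have : Nonempty (Fin M.K) := ⟨⟨0, by have := hM.two_le; omega⟩⟩
  have := isProbabilityMeasure_finLaw (Fin N)
  have := isProbabilityMeasure_finLaw (Fin M.K)
  have := isProbabilityMeasure_finLaw (Fin M.K → Fin N)
  have := prob_cfgLaw hM hN k n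
  set μz := cfgLaw M N k n
  have hL := mp_int (measurePreserving_fst (μ := μz) (ν := M.clauseLaw))
    (integrable_lpot_potConf t hM hN k n)
  have eL := mp_integral (measurePreserving_fst (μ := μz) (ν := M.clauseLaw))
    (measurable_lpot_potConf t).aestronglyMeasurable
  -- clauses on old spins
  have hQ := mp_int (mp_addQ hM hN k n) (integrable_lpot_potConf t hM hN (k + 1) n)
  have eQ := mp_integral (mp_addQ hM hN k n)
    (measurable_lpot_potConf t (k := k + 1)).aestronglyMeasurable
  obtain ⟨iQ, fQ⟩ := integral_fin_fibre μz M.clauseLaw hQ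
  simp only [lpot_addQ] at iQ fQ eQ
  rw [eQ] at fQ
  -- cavity clauses
  have hP := mp_int (mp_addP hM hN k n) (integrable_lpot_potConf t hM hN k (n + 1))
  have eP := mp_integral (mp_addP hM hN k n)
    (measurable_lpot_potConf t (n := n + 1)).aestronglyMeasurable
  obtain ⟨iV, fV⟩ := integral_fin_fibre μz (dLaw M) hP
  rw [eP] at fV
  obtain ⟨iO, fO⟩ := integral_last μz (M.clauseLaw.prod (finLaw (Fin M.K))) (unifLaw (Fin M.K)) iV
  obtain ⟨iP, fP⟩ := integral_fin_fibre μz M.clauseLaw iO
  have fP' := (fP.trans fO).trans fV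
  have hcav : ∀ y : Cfg M.K N k n × Param M.K,
      avg (fun l : Fin M.K => ∫ o, avg (fun v : Fin N => lpot t (potConf t
        (addP (y.1, (((y.2, l), o), v))))) ∂unifLaw (Fin M.K)) =
      avg (fun lv : Fin M.K × Fin N => ∫ o, (lpot t (addCav t (potConf t y.1) y.2 lv.1 lv.2 o) -
        lpot t (potConf t y.1)) ∂unifLaw (Fin M.K)) + lpot t (potConf t y.1) := by
    intro y
    have hi : ∀ l v, Integrable (fun o => lpot t (addCav t (potConf t y.1) y.2 l v o))
        (unifLaw (Fin M.K)) := fun l v =>
      ((integrable_addCav (regPot_potConf t y.1) y.2 l v).add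
        (integrable_const (lpot t (potConf t y.1)))).congr (.of_forall fun o => by
          simp only [Pi.add_apply, sub_add_cancel])
    have e : ∀ lv : Fin M.K × Fin N, ∫ o, (lpot t (addCav t (potConf t y.1) y.2 lv.1 lv.2 o) -
        lpot t (potConf t y.1)) ∂unifLaw (Fin M.K) =
        (∫ o, lpot t (addCav t (potConf t y.1) y.2 lv.1 lv.2 o) ∂unifLaw (Fin M.K)) -
          lpot t (potConf t y.1) := fun lv => by
      rw [integral_sub (hi _ _) (integrable_const _), integral_const, probReal_univ, one_smul]
    simp only [lpot_addP, e, avg_sub_const, sub_add_cancel]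
    rw [avg_prod]
    exact congrArg avg (funext fun l => integral_avg fun v => hi l v)
  set A1 := fun y : Cfg M.K N k n × Param M.K => avg fun i : Fin M.K → Fin N =>
    lpot t (addCl t (potConf t y.1) y.2 i)
  set A2 := fun y : Cfg M.K N k n × Param M.K => avg fun l : Fin M.K => ∫ o, avg (fun v : Fin N =>
    lpot t (potConf t (addP (y.1, (((y.2, l), o), v))))) ∂unifLaw (Fin M.K)
  set V := fun p : Param M.K => ∫ ω0, lpot t (potOne t p ω0) ∂unifLaw (Fin M.K)
  have hVi : Integrable V M.clauseLaw := integrable_vInt t hM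
  have hV := mp_int (measurePreserving_snd (μ := μz) (ν := M.clauseLaw)) hVi
  have eV := mp_integral (measurePreserving_snd (μ := μz) (ν := M.clauseLaw))
    hVi.aestronglyMeasurable
  have hcomb : ∀ y : Cfg M.K N k n × Param M.K, combA t (potConf t y.1) y.2 =
      (A1 y - lpot t (potConf t y.1)) - M.K * (A2 y - lpot t (potConf t y.1)) +
        ((M.K : ℝ) - 1) * V y.2 := fun y => by
    simp only [A1, A2, hcav, combA, avg_sub_const, V]
    ring
  obtain ⟨ic, ec⟩ := integral_comb iQ iP hL hV (M.K : ℝ) ((M.K : ℝ) - 1)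
  have hi : Integrable (fun y : Cfg M.K N k n × Param M.K => combA t (potConf t y.1) y.2)
      (μz.prod M.clauseLaw) := ic.congr (.of_forall fun y => (hcomb y).symm)
  have hneg : ∫ y, combA t (potConf t y.1) y.2 ∂μz.prod M.clauseLaw ≤ 0 := by
    rw [integral_prod _ hi]
    exact integral_nonpos fun z => (integral_combA_nonpos hM (regPot_potConf t z) hN).2
  have he : ∫ y, combA t (potConf t y.1) y.2 ∂μz.prod M.clauseLaw =
      (meanW t M N (k + 1) n - meanW t M N k n) -
        M.K * (meanW t M N k (n + 1) - meanW t M N k n) + ((M.K : ℝ) - 1) * vOne t M := by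
    simp only [hcomb]
    rw [ec, fQ, fP', eL, eV]
    rfl
  linarith

end Vale.Agent.P168.Up
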