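import Vale.Agent.P168.Upper.Config

/-!
The endpoints of the interpolation: the pressure, `𝒯 U` and `𝒯 V` through the configurations.
-/

namespace Vale.Agent.P168.Up

open MeasureTheory Finset Function P168.Poisson

/-! ### Laws on finite spaces and arrays -/

section Laws

variable {α β : Type} [MeasurableSpace α] [MeasurableSpace β]

lemma pi_finLaw {ι : Type} [Fintype ι] [DecidableEq ι] [Fintype α] [MeasurableSingletonClass α]
    [Nonempty α] : Measure.pi (fun _ : ι => finLaw α) = finLaw (ι → α) := by
  have := isProbabilityMeasure_finLaw α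
  refine Measure.ext_iff_singleton.2 fun f => ?_
  rw [← Set.univ_pi_singleton, Measure.pi_pi]
  simp only [finLaw, Measure.smul_apply, Measure.count_singleton, Set.univ_pi_singleton,
    smul_eq_mul, mul_one, prod_const, card_univ, Fintype.card_fun, Nat.cast_pow, ENNReal.inv_pow]

/-- A coordinate in a one point space. -/
lemma mp_pair {μ : Measure α} [IsProbabilityMeasure μ] {ν : Measure β} [IsProbabilityMeasure ν]
    [Subsingleton β] (c : β) : MeasurePreserving (fun x => (x, c)) μ (μ.prod ν) := by
  have hm : Measurable fun x : α => (x, c) := Measurable.prodMk measurable_id measurable_const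
  refine ⟨hm, (Measure.prod_eq fun s u hs hu => ?_).symm⟩
  rw [Measure.map_apply hm (hs.prod hu)]
  rcases u.eq_empty_or_nonempty with h | ⟨a, ha⟩
  · subst h; simp
  · obtain rfl : u = Set.univ := Set.eq_univ_of_forall fun b => Subsingleton.elim a b ▸ ha
    simp [Set.preimage]

/-- A product law on rows and columns. -/
lemma mp_curry (μ : Measure α) [IsProbabilityMeasure μ] (m K : ℕ) :
    MeasurePreserving (MeasurableEquiv.curry (Fin m) (Fin K) α)
      (Measure.pi fun _ : Fin m × Fin K => μ)
      (Measure.pi fun _ : Fin m => Measure.pi fun _ : Fin K => μ) := by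
  have h : MeasurePreserving (MeasurableEquiv.curry (Fin m) (Fin K) α).symm
      (Measure.pi fun _ : Fin m => Measure.pi fun _ : Fin K => μ)
      (Measure.pi fun _ : Fin m × Fin K => μ) := by
    refine ⟨MeasurableEquiv.measurable _, (Measure.pi_eq fun s hs => ?_).symm⟩
    rw [Measure.map_apply (MeasurableEquiv.measurable _) (MeasurableSet.univ_pi hs)]
    have hpre : (MeasurableEquiv.curry (Fin m) (Fin K) α).symm ⁻¹' Set.univ.pi s =
        Set.univ.pi fun c => Set.univ.pi fun j => s (c, j) := by
      ext x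
      simp [MeasurableEquiv.coe_curry_symm, Function.uncurry, Prod.forall]
    rw [hpre, Measure.pi_pi, Fintype.prod_prod_type]
    simp only [Measure.pi_pi]
  exact h.symm _

/-- Pairs and pairs of arrays. -/
lemma mp_unzip (μ : Measure α) (ν : Measure β) [IsProbabilityMeasure μ] [IsProbabilityMeasure ν]
    (m : ℕ) :
    MeasurePreserving (fun z : (Fin m → α) × (Fin m → β) => fun c => (z.1 c, z.2 c))
      ((Measure.pi fun _ => μ).prod (Measure.pi fun _ => ν))
      (Measure.pi fun _ : Fin m => μ.prod ν) :=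
  (measurePreserving_arrowProdEquivProdArrow α β (Fin m) (fun _ => μ) (fun _ => ν)).symm _

end Laws

/-! ### One site -/

variable (t : Trial) {K : ℕ}

/-- The potential of one site with `m` cavity clauses. -/
noncomputable def potSite {m : ℕ} (h : ℝ) (d : Fin m → DT K) : Pot t (Fin m × Fin K) 1 :=
  fun w σ => h * spin (σ 0) + ∑ c, cavLog t (d c) (σ 0) fun q j => w q (c, j)

lemma measurable_potSite {m : ℕ} (σ : Fin 1 → Bool) :
    Measurable fun x : (ℝ × (Fin m → DT K)) × (Fin t.r → Fin m × Fin K → ℝ) =>
      potSite t x.1.1 x.1.2 x.2 σ := by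
  unfold potSite
  refine Measurable.add (by fun_prop) (Finset.measurable_sum _ fun c _ => ?_)
  exact Measurable.comp (g := fun y : DT K × (Fin t.r → Fin K → ℝ) => cavLog t y.1 (σ 0) y.2)
    (f := fun x : (ℝ × (Fin m → DT K)) × (Fin t.r → Fin m × Fin K → ℝ) =>
      (x.1.2 c, fun q j => x.2 q (c, j)))
    (measurable_cavLog t (σ 0)) (Measurable.prodMk (by fun_prop) (by fun_prop))

lemma regPot_potSite {m : ℕ} (h : ℝ) (d : Fin m → DT K) :
    RegPot t (potSite t h d) (|h| + ∑ c, supTheta (d c).1.1) := by
  refine ⟨fun σ => Measurable.comp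
    (g := fun x : (ℝ × (Fin m → DT K)) × (Fin t.r → Fin m × Fin K → ℝ) =>
      potSite t x.1.1 x.1.2 x.2 σ)
    (f := fun w : Fin t.r → Fin m × Fin K → ℝ => ((h, d), w))
    (measurable_potSite t σ) (measurable_const.prodMk measurable_id), fun w σ => ?_⟩
  unfold potSite
  refine (abs_add_le _ _).trans (add_le_add (by rw [abs_mul, abs_spin, mul_one])
    ((abs_sum_le_sum_abs _ _).trans (sum_le_sum fun c _ => ?_)))
  exact abs_log_gFac_le _ _ _ (abs_msgs_le t _ _)

/-- A sum over spins as a constant times the average. -/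
lemma log_collapse_sum {J : Type} [Fintype J] {N : ℕ} {G : Pot t J N} {B : ℝ} (hG : RegPot t G B) :
    Real.log (collapse t.r t.m fun w => ∑ σ : Fin N → Bool, Real.exp (G w σ)) =
      lpot t G + N * Real.log 2 := by
  have h2 : (0 : ℝ) < 2 ^ N := by positivity
  have e : (fun w => ∑ σ : Fin N → Bool, Real.exp (G w σ)) =
      fun w => 2 ^ N * avg fun σ => Real.exp (G w σ) := by
    funext w
    simp only [avg, Fintype.card_fun, Fintype.card_bool, Fintype.card_fin, Nat.cast_pow,
      Nat.cast_ofNat]
    field_simp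
  have hmem := collapse_mem (fun p => (t.m_mem p).1) (measurable_avg fun σ => (hG.1 σ).exp)
    (Real.exp_pos (-B)) fun w => avg_exp_mem (hG.2 w)
  rw [e, collapse_const_mul h2.le (fun p => (t.m_mem p).1.ne')
    fun w => (Real.exp_pos _).le.trans (avg_exp_mem (hG.2 w)).1,
    Real.log_mul h2.ne' ((Real.exp_pos _).trans_le hmem.1).ne', Real.log_pow, lpot]
  ring

variable (M : Model)

/-- The mean of one site. -/
noncomputable def siteU (m : ℕ) : ℝ :=
  ∫ z, lpot t (potSite t z.1 z.2) ∂M.hLaw.prod (Measure.pi fun _ : Fin m => dLaw M)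

variable {M} (hM : M.Valid)
include hM

lemma integrable_lpot_potSite (m : ℕ) :
    Integrable (fun z : ℝ × (Fin m → DT M.K) => lpot t (potSite t z.1 z.2))
      (M.hLaw.prod (Measure.pi fun _ : Fin m => dLaw M)) := by
  have := hM.clause_prob
  have := hM.h_prob
  have := prob_dLaw hM
  have : Nonempty (Fin M.K) := ⟨⟨0, by have := hM.two_le; omega⟩⟩
  have := isProbabilityMeasure_finLaw (Fin M.K)
  have hsup : Integrable (supTheta (K := M.K)) M.clauseLaw := hM.theta_int
  have hd := int_pi_sum m (μ := dLaw M) (g := fun d => supTheta d.1.1)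
    (Integrable.comp_fst (f := fun d : Param M.K × Fin M.K => supTheta d.1)
      (hsup.comp_fst (finLaw (Fin M.K))) (unifLaw (Fin M.K)))
  refine ((hM.h_int.abs.comp_fst _).add (hd.comp_snd _)).mono'
    (measurable_lpot t fun σ => measurable_potSite t σ).aestronglyMeasurable
    (.of_forall fun z => ?_)
  rw [Real.norm_eq_abs]
  exact abs_lpot_le t (regPot_potSite t z.1 z.2)
    (add_nonneg (abs_nonneg _) (sum_nonneg fun c _ => supTheta_nonneg _))

lemma abs_siteU_le (m : ℕ) :
    |siteU t M m| ≤ (∫ h, |h| ∂M.hLaw) + m * ∫ p, supTheta p ∂M.clauseLaw := by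
  have := hM.clause_prob
  have := hM.h_prob
  have := prob_dLaw hM
  have : Nonempty (Fin M.K) := ⟨⟨0, by have := hM.two_le; omega⟩⟩
  have := isProbabilityMeasure_finLaw (Fin M.K)
  have hsup : Integrable (supTheta (K := M.K)) M.clauseLaw := hM.theta_int
  have h1 : Integrable (fun d : DT M.K => supTheta d.1.1) (dLaw M) :=
    Integrable.comp_fst (f := fun d : Param M.K × Fin M.K => supTheta d.1)
      (hsup.comp_fst (finLaw (Fin M.K))) (unifLaw (Fin M.K))
  have hd := int_pi_sum m (μ := dLaw M) (g := fun d => supTheta d.1.1) h1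
  have hp : MeasurePreserving (fun d : DT M.K => d.1.1) (dLaw M) M.clauseLaw :=
    measurePreserving_fst.comp measurePreserving_fst
  refine abs_integral_le_integral_abs.trans ((integral_mono (integrable_lpot_potSite t hM m).abs
    ((hM.h_int.abs.comp_fst _).add (hd.comp_snd _)) fun z => abs_lpot_le t
      (regPot_potSite t z.1 z.2)
      (add_nonneg (abs_nonneg _) (sum_nonneg fun c _ => supTheta_nonneg _))).trans_eq ?_)
  simp only [Pi.add_apply]
  rw [integral_add (hM.h_int.abs.comp_fst _) (hd.comp_snd _), integral_fun_fst,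
    integral_fun_snd (fun d : Fin m → DT M.K => ∑ c, supTheta (d c).1.1),
    integral_finsetSum _ fun c _ => mp_int (measurePreserving_eval (fun _ => dLaw M) c) h1]
  simp [mp_integral (measurePreserving_eval (fun _ : Fin m => dLaw M) _) h1.aestronglyMeasurable,
    mp_integral hp hsup.aestronglyMeasurable]

/-- The summand of `𝒯 U`. -/
theorem siteU_eq (m : ℕ) :
    ∫ h, ∫ θ, avg (fun l : Fin m → Fin M.K => ∫ ω0, Real.log (collapse t.r t.m fun ω =>
        ∑ e : Bool, Real.exp (h * spin e) *
          ∏ c : Fin m, ∑ σ ∈ univ.filter (fun σ : Fin M.K → Bool => σ (l c) = e),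
            Real.exp (theta (θ c) σ) *
              ∏ j ∈ univ.erase (l c), (1 + t.message ω0 ω (c, j) * spin (σ j)) / 2)
        ∂unifLaw (Fin m × Fin M.K))
      ∂(Measure.pi fun _ : Fin m => M.clauseLaw) ∂M.hLaw = siteU t M m + Real.log 2 := by
  have := hM.clause_prob
  have := hM.h_prob
  have := prob_dLaw hM
  have : Nonempty (Fin M.K) := ⟨⟨0, by have := hM.two_le; omega⟩⟩
  have := isProbabilityMeasure_finLaw (Fin M.K)
  have := isProbabilityMeasure_finLaw (Fin m → Fin M.K)
  set P := Measure.pi fun _ : Fin m => M.clauseLaw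
  set O := unifLaw (Fin m × Fin M.K)
  let Φ : ((Fin m → Param M.K) × (Fin m → Fin M.K)) × (Fin m × Fin M.K → ℝ) → Fin m → DT M.K :=
    fun x c => ((x.1.1 c, x.1.2 c), fun j => x.2 (c, j))
  have hΦ : MeasurePreserving Φ ((P.prod (finLaw (Fin m → Fin M.K))).prod O)
      (Measure.pi fun _ : Fin m => dLaw M) := by
    have h1 := mp_unzip M.clauseLaw (finLaw (Fin M.K)) m
    rw [pi_finLaw] at h1
    have h2 := mp_curry unit01 m M.K
    exact (mp_unzip (M.clauseLaw.prod (finLaw (Fin M.K))) (unifLaw (Fin M.K)) m).comp (h1.prod h2)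
  have hpt : ∀ h θ (l : Fin m → Fin M.K) (ω0 : Fin m × Fin M.K → ℝ),
      Real.log (collapse t.r t.m fun ω => ∑ e : Bool, Real.exp (h * spin e) *
        ∏ c : Fin m, ∑ σ ∈ univ.filter (fun σ : Fin M.K → Bool => σ (l c) = e),
          Real.exp (theta (θ c) σ) *
            ∏ j ∈ univ.erase (l c), (1 + t.message ω0 ω (c, j) * spin (σ j)) / 2) =
      lpot t (potSite t h (Φ ((θ, l), ω0))) + Real.log 2 := by
    intro h θ l ω0
    have e := log_collapse_sum t (regPot_potSite t h (Φ ((θ, l), ω0)))
    rw [Nat.cast_one, one_mul] at e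
    rw [← e]
    congr 2
    funext ω
    rw [← (Equiv.funUnique (Fin 1) Bool).symm.sum_comp]
    refine sum_congr rfl fun e _ => ?_
    simp only [potSite, Real.exp_add, Real.exp_sum, Equiv.funUnique_symm_apply, uniqueElim_const]
    refine congrArg _ (prod_congr rfl fun c _ => ?_)
    rw [cavLog, Real.exp_log (gFac_pos _ _ _ (abs_msgs_le t _ _))]
    rfl
  simp only [hpt]
  set F : ℝ × (((Fin m → Param M.K) × (Fin m → Fin M.K)) × (Fin m × Fin M.K → ℝ)) → ℝ :=
    fun x => lpot t (potSite t x.1 (Φ x.2)) + Real.log 2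
  have hmp := (MeasurePreserving.id M.hLaw).prod hΦ
  have hi : Integrable F (M.hLaw.prod ((P.prod (finLaw (Fin m → Fin M.K))).prod O)) :=
    (mp_int hmp (integrable_lpot_potSite t hM m)).add (integrable_const _)
  have hF : ∫ x, F x ∂M.hLaw.prod ((P.prod (finLaw (Fin m → Fin M.K))).prod O) =
      siteU t M m + Real.log 2 := by
    simp only [F]
    have e := mp_integral hmp (integrable_lpot_potSite t hM m).aestronglyMeasurable
    have i0 : Integrable (fun x => lpot t (potSite t x.1 (Φ x.2)))
        (M.hLaw.prod ((P.prod (finLaw (Fin m → Fin M.K))).prod O)) :=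
      mp_int hmp (integrable_lpot_potSite t hM m)
    rw [integral_add i0 (integrable_const _), integral_const, probReal_univ, one_smul, siteU, ← e]
    rfl
  rw [← hF, integral_prod _ hi]
  refine integral_congr_ae ?_
  filter_upwards [hi.prod_right_ae] with h hh
  rw [integral_prod _ hh, integral_prod _ hh.integral_prod_left]
  simp only [integral_finLaw, F]

/-- The summand of `𝒯 V`. -/
theorem vSum_eq (k : ℕ) :
    ∫ θ, (∫ ω0, Real.log (collapse t.r t.m fun ω =>
        ∏ c : Fin k, ∑ σ : Fin M.K → Bool, Real.exp (theta (θ c) σ) *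
          ∏ j, (1 + t.message ω0 ω (c, j) * spin (σ j)) / 2)
        ∂unifLaw (Fin k × Fin M.K))
      ∂(Measure.pi fun _ : Fin k => M.clauseLaw) = k * vOne t M := by
  have := hM.clause_prob
  have hpt : ∀ (θ : Fin k → Param M.K) (ω0 : Fin k × Fin M.K → ℝ),
      Real.log (collapse t.r t.m fun ω => ∏ c : Fin k, ∑ σ : Fin M.K → Bool,
        Real.exp (theta (θ c) σ) * ∏ j, (1 + t.message ω0 ω (c, j) * spin (σ j)) / 2) =
      ∑ c, lpot t (potOne t (θ c) fun j => ω0 (c, j)) := by
    intro θ ω0
    let e : ∀ c : Fin k, Fin M.K ≃ {x : Fin k × Fin M.K // x.1 = c} := fun c =>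
      { toFun := fun j => ⟨(c, j), rfl⟩
        invFun := fun x => x.1.2
        left_inv := fun j => rfl
        right_inv := by rintro ⟨⟨a, b⟩, h⟩; dsimp only at h; subst h; rfl }
    let Y : ∀ c, (Fin t.r → Fin M.K → ℝ) → ℝ := fun c u =>
      vFac (θ c) (msgs t (fun j => ω0 (c, j)) u)
    have hY : ∀ c u, 0 < Y c u := fun c u => vFac_pos _ (abs_msgs_le t _ _)
    have h1 := collapse_prod (J := Fin k × Fin M.K) Prod.fst t.m
      (fun c u => Y c fun q j => u q (e c j)) fun c u => (hY c _).le
    have h2 : ∀ c, Real.log (collapse t.r t.m fun u => Y c fun q j => u q (e c j)) =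
        lpot t (potOne t (θ c) fun j => ω0 (c, j)) := fun c => by
      rw [collapse_relabel (e c) t.m (Y c), lpot]
      congr 2
      funext u
      simp only [potOne, Real.exp_log (vFac_pos _ (abs_msgs_le t _ _)), avg_const]
      rfl
    simp only [← h2]
    rw [← Real.log_prod, ← h1]
    · rfl
    intro c _
    refine ((Real.exp_pos (-supTheta (θ c))).trans_le (collapse_mem (b := Real.exp (supTheta (θ c)))
      (fun p => (t.m_mem p).1) (measurable_vFac.comp (measurable_const.prodMk
        ((measurable_msgs t).comp (measurable_const.prodMk (by fun_prop)))))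
      (Real.exp_pos _) fun u => ?_).1).ne'
    have h := abs_le.1 (abs_log_vFac_le (θ c)
      (abs_msgs_le t (fun j => ω0 (c, j)) fun q j => u q (e c j)))
    exact ⟨(Real.exp_le_exp.2 h.1).trans_eq (Real.exp_log (hY c _)),
      (Real.exp_log (hY c _)).ge.trans (Real.exp_le_exp.2 h.2)⟩
  simp only [hpt]
  have hι : ∀ c : Fin k, MeasurePreserving (fun x : Fin k × Fin M.K → ℝ => fun j => x (c, j))
      (unifLaw (Fin k × Fin M.K)) (unifLaw (Fin M.K)) := fun c =>
    measurePreserving_restrict unit01 (fun j => (c, j)) fun a b h => congrArg Prod.snd h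
  have h1 : ∀ θ : Fin k → Param M.K,
      ∫ ω0, ∑ c, lpot t (potOne t (θ c) fun j => ω0 (c, j)) ∂unifLaw (Fin k × Fin M.K) =
        ∑ c, ∫ ω0, lpot t (potOne t (θ c) ω0) ∂unifLaw (Fin M.K) := fun θ => by
    rw [integral_finsetSum _ fun c _ => mp_int (hι c) (integrable_potOne (t := t) (θ c))]
    exact sum_congr rfl fun c _ =>
      mp_integral (hι c) (integrable_potOne (t := t) (θ c)).aestronglyMeasurable
  simp only [h1]
  rw [integral_finsetSum _ fun c _ =>
    mp_int (measurePreserving_eval (fun _ => M.clauseLaw) c) (integrable_vInt t hM)]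
  simp [mp_integral (measurePreserving_eval (fun _ : Fin k => M.clauseLaw) _)
    (integrable_vInt t hM).aestronglyMeasurable, vOne]

/-- The summand of the pressure. -/
theorem press_eq {N : ℕ} (hN : 0 < N) (k : ℕ) :
    ∫ θ, ∫ h, avg (fun i : Fin k → Fin M.K → Fin N =>
        Real.log (∑ σ : Fin N → Bool, Real.exp (ham θ i h σ)))
      ∂Measure.pi (fun _ : Fin N => M.hLaw) ∂(Measure.pi fun _ : Fin k => M.clauseLaw) =
      meanW t M N k 0 + N * Real.log 2 := by
  have := hM.clause_prob
  have := hM.h_prob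
  have := prob_dLaw hM
  have : Nonempty (Fin N) := ⟨⟨0, hN⟩⟩
  have : Nonempty (Fin M.K) := ⟨⟨0, by have := hM.two_le; omega⟩⟩
  have := isProbabilityMeasure_finLaw (Fin N)
  have := isProbabilityMeasure_finLaw (Fin M.K → Fin N)
  have := isProbabilityMeasure_finLaw (Fin k → Fin M.K → Fin N)
  set P := Measure.pi fun _ : Fin k => M.clauseLaw
  set H := Measure.pi fun _ : Fin N => M.hLaw
  set I := finLaw (Fin k → Fin M.K → Fin N)
  let Ψ : (Fin k → Param M.K) × ((Fin N → ℝ) × (Fin k → Fin M.K → Fin N)) → Cfg M.K N k 0 :=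
    fun x => (x.2.1, (fun c => (x.1 c, x.2.2 c), default))
  have hΨ : MeasurePreserving Ψ (P.prod (H.prod I)) (cfgLaw M N k 0) := by
    have h1 := mp_unzip M.clauseLaw (finLaw (Fin M.K → Fin N)) k
    rw [pi_finLaw] at h1
    have g := (mp_pair (ν := Measure.pi fun _ : Fin 0 => (dLaw M).prod (finLaw (Fin N)))
      default).comp h1
    exact (((MeasurePreserving.id H).prod g).comp ((measurePreserving_prodAssoc H P I).comp
      (((Measure.measurePreserving_swap (μ := P) (ν := H)).prod (MeasurePreserving.id I)).comp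
        ((measurePreserving_prodAssoc P H I).symm _))))
  have hpt : ∀ (θ : Fin k → Param M.K) (h : Fin N → ℝ) (i : Fin k → Fin M.K → Fin N),
      Real.log (∑ σ : Fin N → Bool, Real.exp (ham θ i h σ)) =
        lpot t (potConf t (Ψ (θ, (h, i)))) + N * Real.log 2 := by
    intro θ h i
    rw [← log_collapse_sum t (regPot_potConf t (Ψ (θ, (h, i))))]
    have e : ∀ w σ, potConf t (Ψ (θ, (h, i))) w σ = ham θ i h σ := fun w σ => by
      simp [potConf, Ψ, ham]
    simp only [e]
    rw [collapse_const (sum_nonneg fun σ _ => (Real.exp_pos _).le) fun p => (t.m_mem p).1.ne']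
  simp only [hpt]
  set F := fun x => lpot t (potConf t (Ψ x)) + N * Real.log 2
  have hi : Integrable F (P.prod (H.prod I)) :=
    (mp_int hΨ (integrable_lpot_potConf t hM hN k 0)).add (integrable_const _)
  have hF : ∫ x, F x ∂P.prod (H.prod I) = meanW t M N k 0 + N * Real.log 2 := by
    simp only [F]
    rw [integral_add (mp_int hΨ (integrable_lpot_potConf t hM hN k 0)) (integrable_const _),
      mp_integral hΨ (measurable_lpot_potConf t).aestronglyMeasurable, integral_const,
      probReal_univ, one_smul]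
    rfl
  rw [← hF, integral_prod _ hi]
  refine integral_congr_ae ?_
  filter_upwards [hi.prod_right_ae] with θ hθ
  rw [integral_prod _ hθ]
  simp only [I, integral_finLaw, F]

omit hM in
/-- The sites separate. -/
lemma lpot_sites {N n : ℕ} (h : Fin N → ℝ) (d : Fin n → DT K) (s : Fin n → Fin N)
    (q : Fin 0 → Param K × (Fin K → Fin N)) :
    lpot t (potConf t ((h, (q, fun c => (d c, s c))) : Cfg K N 0 n)) =
      ∑ v, lpot t (potSite t (h v)
        fun a => d ((Fintype.equivFin {c // s c = v}).symm a).1) := by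
  let π : Fin n × Fin K → Fin N := fun x => s x.1
  let ι : ∀ v, Fin (Fintype.card {c // s c = v}) ≃ {c // s c = v} := fun v =>
    (Fintype.equivFin _).symm
  let e : ∀ v, Fin (Fintype.card {c // s c = v}) × Fin K ≃ {x : Fin n × Fin K // π x = v} :=
    fun v => ((ι v).prodCongr (Equiv.refl _)).trans
      { toFun := fun x => ⟨(x.1.1, x.2), x.1.2⟩
        invFun := fun x => (⟨x.1.1, x.2⟩, x.1.2)
        left_inv := fun x => rfl
        right_inv := fun x => rfl }
  let G : ∀ v, Pot t (Fin (Fintype.card {c // s c = v}) × Fin K) 1 := fun v =>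
    potSite t (h v) fun a => d (ι v a).1
  let Y : ∀ v, (Fin t.r → Fin (Fintype.card {c // s c = v}) × Fin K → ℝ) → ℝ := fun v u =>
    avg fun σ : Fin 1 → Bool => Real.exp (G v u σ)
  have hmeas : ∀ v, Measurable (Y v) := fun v =>
    measurable_avg fun σ => ((regPot_potSite t (h v) fun a => d (ι v a).1).1 σ).exp
  have hmem := fun v u => avg_exp_mem ((regPot_potSite t (h v) fun a => d (ι v a).1).2 u)
  have h1 := collapse_prod π t.m (fun v u => Y v fun p x => u p (e v x))
    fun v u => (Real.exp_pos _).le.trans (hmem v _).1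
  simp only [fun v => collapse_relabel (e v) t.m (Y v)] at h1
  have h2 : (fun w => avg fun σ : Fin N → Bool =>
      Real.exp (potConf t ((h, (q, fun c => (d c, s c))) : Cfg K N 0 n) w σ)) =
      fun w => ∏ v, Y v fun p x => w p (e v x).1 := by
    funext w
    let f : Fin N → Bool → ℝ := fun v b => Real.exp (G v (fun p x => w p (e v x).1) fun _ => b)
    have hY : ∀ v, Y v (fun p x => w p (e v x).1) = (∑ b, f v b) / 2 := fun v => by
      show (∑ σ : Fin 1 → Bool, _) / ((Fintype.card (Fin 1 → Bool) : ℕ) : ℝ) = _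
      rw [← (Equiv.funUnique (Fin 1) Bool).symm.sum_comp]
      simp [f]
      rfl
    have hσ : ∀ σ : Fin N → Bool,
        Real.exp (potConf t ((h, (q, fun c => (d c, s c))) : Cfg K N 0 n) w σ) =
          ∏ v, f v (σ v) := fun σ => by
      rw [← Real.exp_sum]
      congr 1
      simp only [potConf, univ_eq_empty, sum_empty, zero_add, G, potSite, sum_add_distrib]
      congr 1
      rw [← Fintype.sum_fiberwise s]
      refine sum_congr rfl fun v _ => ?_
      rw [← (ι v).sum_comp]
      refine sum_congr rfl fun a _ => ?_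
      rw [(ι v a).2]
      rfl
    simp only [hY, hσ]
    show (∑ σ : Fin N → Bool, ∏ v, f v (σ v)) / _ = _
    rw [← Fintype.prod_sum, prod_div_distrib]
    simp
  rw [lpot, h2, h1, Real.log_prod]
  · rfl
  · exact fun v _ => ((Real.exp_pos _).trans_le (collapse_mem (fun p => (t.m_mem p).1) (hmeas v)
      (Real.exp_pos _) (hmem v)).1).ne'

/-- Without clauses the sites are independent. -/
theorem meanW_zero {N : ℕ} (hN : 0 < N) (n : ℕ) :
    meanW t M N 0 n = N * binom2 (1 / N) n fun m _ => siteU t M m := by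
  have := hM.clause_prob
  have := hM.h_prob
  have := prob_dLaw hM
  have : Nonempty (Fin N) := ⟨⟨0, hN⟩⟩
  have := isProbabilityMeasure_finLaw (Fin N)
  have := isProbabilityMeasure_finLaw (Fin M.K → Fin N)
  have := isProbabilityMeasure_finLaw (Fin n → Fin N)
  set H := Measure.pi fun _ : Fin N => M.hLaw
  set D := Measure.pi fun _ : Fin n => dLaw M
  set S := finLaw (Fin n → Fin N)
  let Θ : ((Fin N → ℝ) × (Fin n → DT M.K)) × (Fin n → Fin N) → Cfg M.K N 0 n :=
    fun x => (x.1.1, (default, fun c => (x.1.2 c, x.2 c)))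
  have hΘ : MeasurePreserving Θ ((H.prod D).prod S) (cfgLaw M N 0 n) := by
    have h1 := mp_unzip (dLaw M) (finLaw (Fin N)) n
    rw [pi_finLaw] at h1
    have g := (Measure.measurePreserving_swap.comp
      (mp_pair (μ := Measure.pi fun _ : Fin n => (dLaw M).prod (finLaw (Fin N)))
        (ν := Measure.pi fun _ : Fin 0 => M.clauseLaw.prod (finLaw (Fin M.K → Fin N)))
        default)).comp h1
    exact ((MeasurePreserving.id H).prod g).comp (measurePreserving_prodAssoc H D S)
  have hs : ∀ (s : Fin n → Fin N) (v : Fin N),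
      MeasurePreserving (fun z : (Fin N → ℝ) × (Fin n → DT M.K) =>
        (z.1 v, fun a => z.2 ((Fintype.equivFin {c // s c = v}).symm a).1))
        (H.prod D) (M.hLaw.prod (Measure.pi fun _ => dLaw M)) := fun s v =>
    (measurePreserving_eval (fun _ => M.hLaw) v).prod
      (measurePreserving_restrict (dLaw M) _
        (Subtype.val_injective.comp (Fintype.equivFin _).symm.injective))
  have hone : ∀ s : Fin n → Fin N, ∫ z, lpot t (potConf t (Θ (z, s))) ∂H.prod D =
      ∑ v, siteU t M (markCount {v} s) := fun s => by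
    simp only [Θ, lpot_sites]
    rw [integral_finsetSum _ fun v _ => mp_int (hs s v) (integrable_lpot_potSite t hM _)]
    refine sum_congr rfl fun v _ => ?_
    rw [mp_integral (hs s v) (integrable_lpot_potSite t hM _).aestronglyMeasurable]
    have hc : markCount {v} s = Fintype.card {c // s c = v} := by
      simp [markCount, Fintype.card_subtype, sum_boole]
    rw [hc]
    rfl
  rw [meanW, ← mp_integral hΘ (measurable_lpot_potConf t).aestronglyMeasurable,
    integral_prod_symm _ (mp_int hΘ (integrable_lpot_potConf t hM hN 0 n))]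
  simp only [hone]
  rw [integral_finsetSum _ fun v _ => Integrable.of_finite]
  have hone' : ∀ v : Fin N, ∫ s, siteU t M (markCount {v} s) ∂S =
      binom2 (1 / N) n fun m _ => siteU t M m := fun v => by
    have e := integral_marks (finLaw (Fin N)) (measurableSet_singleton v) n
      fun m _ => siteU t M m
    rw [pi_finLaw] at e
    rw [e]
    congr 1
    simp [measureReal_def, finLaw]
  simp [hone']

end Vale.Agent.P168.Up
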