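import Vale.Agent.P168.Upper.Collapse

/-!
The factors of the interpolation, the log partition function of a potential of messages and spins,
and the combination of the increments of one clause, one cavity factor and one factor of `V`.
-/

namespace Vale.Agent.P168.Up

open MeasureTheory Finset Function

variable {K N : ℕ}

/-! ### Clauses and factors -/

/-- The largest absolute value of `θ`. -/
noncomputable def supTheta (p : Param K) : ℝ := univ.sup' univ_nonempty fun σ => |theta p σ|

lemma abs_theta_le (p : Param K) (σ : Fin K → Bool) : |theta p σ| ≤ supTheta p :=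
  le_sup' (fun σ => |theta p σ|) (mem_univ σ)

lemma supTheta_nonneg (p : Param K) : 0 ≤ supTheta p :=
  (abs_nonneg _).trans (abs_theta_le p fun _ => true)

/-- A clause in the class. -/
def GoodP (p : Param K) : Prop := 0 < p.1.1 ∧ |p.1.2| < 1 ∧ ∀ j e, |p.2 j e| ≤ 1

lemma GoodP.one_add_pos {p : Param K} (hp : GoodP p) (σ : Fin K → Bool) :
    0 < 1 + p.1.2 * ∏ j, p.2 j (σ j) := by
  have h : |∏ j, p.2 j (σ j)| ≤ 1 := by
    rw [Finset.abs_prod]; exact prod_le_one (fun j _ => abs_nonneg _) fun j _ => hp.2.2 j _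
  have h2 : |p.1.2 * ∏ j, p.2 j (σ j)| < 1 := by
    rw [abs_mul]
    exact lt_of_le_of_lt (mul_le_of_le_one_right (abs_nonneg _) h) hp.2.1
  linarith [(abs_lt.1 h2).1]

lemma GoodP.exp_theta {p : Param K} (hp : GoodP p) (σ : Fin K → Bool) :
    Real.exp (theta p σ) = p.1.1 + p.1.1 * p.1.2 * ∏ j, p.2 j (σ j) := by
  rw [theta, Real.exp_add, Real.exp_log hp.1, Real.exp_log (hp.one_add_pos σ)]
  ring

/-- The factor of one cavity clause at position `l` and spin `e`, given the messages `x`. -/
noncomputable def gFac (p : Param K) (l : Fin K) (e : Bool) (x : Fin K → ℝ) : ℝ :=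
  ∑ σ ∈ univ.filter (fun σ : Fin K → Bool => σ l = e),
    Real.exp (theta p σ) * ∏ j ∈ univ.erase l, (1 + x j * spin (σ j)) / 2

/-- The factor of one clause of `V`. -/
noncomputable def vFac (p : Param K) (x : Fin K → ℝ) : ℝ :=
  ∑ σ : Fin K → Bool, Real.exp (theta p σ) * ∏ j, (1 + x j * spin (σ j)) / 2

lemma sum_filter_prod (l : Fin K) (e : Bool) (F : Fin K → Bool → ℝ) :
    ∑ σ ∈ univ.filter (fun σ : Fin K → Bool => σ l = e), ∏ j ∈ univ.erase l, F j (σ j) =
      ∏ j ∈ univ.erase l, ∑ b : Bool, F j b := by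
  classical
  let G : Fin K → Bool → ℝ := fun j b => if j = l then (if b = e then 1 else 0) else F j b
  have h1 : ∀ σ : Fin K → Bool, ∏ j, G j (σ j) =
      if σ l = e then ∏ j ∈ univ.erase l, F j (σ j) else 0 := fun σ => by
    rw [← mul_prod_erase univ (fun j => G j (σ j)) (mem_univ l),
      prod_congr rfl fun j hj => if_neg (ne_of_mem_erase hj)]
    simp [G]
  have h2 : ∏ j, ∑ b : Bool, G j b = ∏ j ∈ univ.erase l, ∑ b : Bool, F j b := by
    rw [← mul_prod_erase univ (fun j => ∑ b : Bool, G j b) (mem_univ l),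
      prod_congr rfl fun j hj => sum_congr rfl fun b _ => if_neg (ne_of_mem_erase hj)]
    simp [G]
  rw [sum_filter, ← h2, Fintype.prod_sum]
  exact sum_congr rfl fun σ _ => (h1 σ).symm

lemma sum_weight (x : ℝ) : ∑ b : Bool, (1 + x * spin b) / 2 = 1 := by
  rw [Fintype.sum_bool]
  simp [spin]
  ring

lemma GoodP.gFac_eq {p : Param K} (hp : GoodP p) (l : Fin K) (e : Bool) (x : Fin K → ℝ) :
    gFac p l e x = p.1.1 * (1 + p.1.2 * p.2 l e *
      ∏ j ∈ univ.erase l, ∑ b : Bool, p.2 j b * ((1 + x j * spin b) / 2)) := by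
  have h : ∀ σ ∈ univ.filter (fun σ : Fin K → Bool => σ l = e),
      Real.exp (theta p σ) * ∏ j ∈ univ.erase l, (1 + x j * spin (σ j)) / 2 =
        p.1.1 * (∏ j ∈ univ.erase l, (1 + x j * spin (σ j)) / 2) +
          p.1.1 * p.1.2 * p.2 l e *
            ∏ j ∈ univ.erase l, p.2 j (σ j) * ((1 + x j * spin (σ j)) / 2) := by
    intro σ hσ
    rw [hp.exp_theta, ← mul_prod_erase univ (fun j => p.2 j (σ j)) (mem_univ l),
      (mem_filter.1 hσ).2, prod_mul_distrib]
    ring
  rw [gFac, sum_congr rfl h, sum_add_distrib, ← mul_sum, ← mul_sum,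
    sum_filter_prod l e fun j b => (1 + x j * spin b) / 2,
    sum_filter_prod l e fun j b => p.2 j b * ((1 + x j * spin b) / 2)]
  simp only [sum_weight, prod_const_one]
  ring

lemma GoodP.vFac_eq {p : Param K} (hp : GoodP p) (x : Fin K → ℝ) :
    vFac p x = p.1.1 * (1 + p.1.2 *
      ∏ j, ∑ b : Bool, p.2 j b * ((1 + x j * spin b) / 2)) := by
  have h : ∀ σ ∈ (univ : Finset (Fin K → Bool)),
      Real.exp (theta p σ) * ∏ j, (1 + x j * spin (σ j)) / 2 =
        p.1.1 * (∏ j, (1 + x j * spin (σ j)) / 2) +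
          p.1.1 * p.1.2 * ∏ j, p.2 j (σ j) * ((1 + x j * spin (σ j)) / 2) := by
    intro σ _
    rw [hp.exp_theta, prod_mul_distrib]
    ring
  rw [vFac, sum_congr rfl h, sum_add_distrib, ← mul_sum, ← mul_sum, Fintype.prod_sum]
  rw [← Fintype.prod_sum (fun j b => (1 + x j * spin b) / 2)]
  simp only [sum_weight, prod_const_one]
  ring

lemma weight_nonneg {x : ℝ} (hx : |x| ≤ 1) (b : Bool) : 0 ≤ (1 + x * spin b) / 2 := by
  have := abs_le.1 hx
  cases b <;> simp [spin] <;> linarith

lemma gFac_pos (q : Param K) (l : Fin K) (e : Bool) {x : Fin K → ℝ} (hx : ∀ j, |x j| ≤ 1) :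
    0 < gFac q l e x := by
  have hlow : Real.exp (-supTheta q) ≤ gFac q l e x := by
    calc Real.exp (-supTheta q) = Real.exp (-supTheta q) *
          ∑ σ ∈ univ.filter (fun σ : Fin K → Bool => σ l = e),
            ∏ j ∈ univ.erase l, (1 + x j * spin (σ j)) / 2 := by
          rw [sum_filter_prod l e fun j b => (1 + x j * spin b) / 2]
          simp only [sum_weight, prod_const_one, mul_one]
      _ ≤ gFac q l e x := by
          rw [mul_sum]
          exact sum_le_sum fun σ _ => mul_le_mul_of_nonneg_right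
            (Real.exp_le_exp.2 (abs_le.1 (abs_theta_le q σ)).1)
            (prod_nonneg fun j _ => weight_nonneg (hx j) _)
  exact (Real.exp_pos _).trans_le hlow

lemma vFac_pos (q : Param K) {x : Fin K → ℝ} (hx : ∀ j, |x j| ≤ 1) : 0 < vFac q x := by
  have hlow : Real.exp (-supTheta q) ≤ vFac q x := by
    calc Real.exp (-supTheta q) = Real.exp (-supTheta q) *
          ∑ σ : Fin K → Bool, ∏ j, (1 + x j * spin (σ j)) / 2 := by
          rw [← Fintype.prod_sum (fun j b => (1 + x j * spin b) / 2)]
          simp only [sum_weight, prod_const_one, mul_one]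
      _ ≤ vFac q x := by
          rw [mul_sum]
          exact sum_le_sum fun σ _ => mul_le_mul_of_nonneg_right
            (Real.exp_le_exp.2 (abs_le.1 (abs_theta_le q σ)).1)
            (prod_nonneg fun j _ => weight_nonneg (hx j) _)
  exact (Real.exp_pos _).trans_le hlow

/-- Two clauses with close `θ` have close factors. -/
lemma abs_log_gFac_sub_le {p p' : Param K} {d : ℝ} (hd : ∀ σ, |theta p σ - theta p' σ| ≤ d)
    (l : Fin K) (e : Bool) {x : Fin K → ℝ} (hx : ∀ j, |x j| ≤ 1) :
    |Real.log (gFac p l e x) - Real.log (gFac p' l e x)| ≤ d := by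
  have key : ∀ q q' : Param K, (∀ σ, theta q σ ≤ d + theta q' σ) →
      gFac q l e x ≤ Real.exp d * gFac q' l e x := fun q q' h => by
    rw [gFac, gFac, mul_sum]
    refine sum_le_sum fun σ _ => ?_
    rw [← mul_assoc, ← Real.exp_add]
    exact mul_le_mul_of_nonneg_right (Real.exp_le_exp.2 (h σ))
      (prod_nonneg fun j _ => weight_nonneg (hx j) _)
  have hpos : ∀ q : Param K, 0 < gFac q l e x := fun q => gFac_pos q l e hx
  have h1 := Real.log_le_log (hpos p) (key p p' fun σ => by linarith [(abs_le.1 (hd σ)).2])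
  have h2 := Real.log_le_log (hpos p') (key p' p fun σ => by linarith [(abs_le.1 (hd σ)).1])
  rw [Real.log_mul (Real.exp_pos d).ne' (hpos _).ne', Real.log_exp] at h1 h2
  rw [abs_sub_le_iff]
  constructor <;> linarith

lemma abs_log_vFac_sub_le {p p' : Param K} {d : ℝ} (hd : ∀ σ, |theta p σ - theta p' σ| ≤ d)
    {x : Fin K → ℝ} (hx : ∀ j, |x j| ≤ 1) :
    |Real.log (vFac p x) - Real.log (vFac p' x)| ≤ d := by
  have key : ∀ q q' : Param K, (∀ σ, theta q σ ≤ d + theta q' σ) →
      vFac q x ≤ Real.exp d * vFac q' x := fun q q' h => by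
    rw [vFac, vFac, mul_sum]
    refine sum_le_sum fun σ _ => ?_
    rw [← mul_assoc, ← Real.exp_add]
    exact mul_le_mul_of_nonneg_right (Real.exp_le_exp.2 (h σ))
      (prod_nonneg fun j _ => weight_nonneg (hx j) _)
  have hpos : ∀ q : Param K, 0 < vFac q x := fun q => vFac_pos q hx
  have h1 := Real.log_le_log (hpos p) (key p p' fun σ => by linarith [(abs_le.1 (hd σ)).2])
  have h2 := Real.log_le_log (hpos p') (key p' p fun σ => by linarith [(abs_le.1 (hd σ)).1])
  rw [Real.log_mul (Real.exp_pos d).ne' (hpos _).ne', Real.log_exp] at h1 h2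
  rw [abs_sub_le_iff]
  constructor <;> linarith

/-- The clause with `θ = 0`. -/
def nullP : Param K := ((1, 0), fun _ _ => 0)

lemma theta_nullP (σ : Fin K → Bool) : theta (nullP : Param K) σ = 0 := by simp [theta, nullP]

lemma log_gFac_nullP (l : Fin K) (e : Bool) (x : Fin K → ℝ) :
    Real.log (gFac nullP l e x) = 0 := by
  simp only [gFac, theta_nullP, Real.exp_zero, one_mul,
    sum_filter_prod l e fun j b => (1 + x j * spin b) / 2, sum_weight, prod_const_one, Real.log_one]

lemma log_vFac_nullP (x : Fin K → ℝ) : Real.log (vFac nullP x) = 0 := by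
  simp only [vFac, theta_nullP, Real.exp_zero, one_mul,
    ← Fintype.prod_sum (fun j b => (1 + x j * spin b) / 2), sum_weight, prod_const_one,
    Real.log_one]

lemma abs_log_gFac_le (p : Param K) (l : Fin K) (e : Bool) {x : Fin K → ℝ} (hx : ∀ j, |x j| ≤ 1) :
    |Real.log (gFac p l e x)| ≤ supTheta p := by
  simpa [log_gFac_nullP] using abs_log_gFac_sub_le (p := p) (p' := nullP) (d := supTheta p)
    (fun σ => by rw [theta_nullP, sub_zero]; exact abs_theta_le p σ) l e hx

lemma abs_log_vFac_le (p : Param K) {x : Fin K → ℝ} (hx : ∀ j, |x j| ≤ 1) :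
    |Real.log (vFac p x)| ≤ supTheta p := by
  simpa [log_vFac_nullP] using abs_log_vFac_sub_le (p := p) (p' := nullP) (d := supTheta p)
    (fun σ => by rw [theta_nullP, sub_zero]; exact abs_theta_le p σ) hx

lemma measurable_theta (σ : Fin K → Bool) : Measurable fun p : Param K => theta p σ := by
  unfold theta; fun_prop

lemma measurable_supTheta : Measurable (supTheta : Param K → ℝ) := by
  have h : Measurable (univ.sup' univ_nonempty fun σ : Fin K → Bool =>
      fun p : Param K => |theta p σ|) :=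
    Finset.measurable_sup' univ_nonempty fun σ _ => (measurable_theta σ).abs
  convert h using 1
  funext p
  simp [supTheta, Finset.sup'_apply]

lemma measurable_gFac (l : Fin K) (e : Bool) :
    Measurable fun z : Param K × (Fin K → ℝ) => gFac z.1 l e z.2 := by
  unfold gFac
  refine Finset.measurable_sum _ fun σ _ => ((measurable_theta σ).comp measurable_fst).exp.mul
    (Finset.measurable_prod _ fun j _ => ?_)
  fun_prop

lemma measurable_vFac : Measurable fun z : Param K × (Fin K → ℝ) => vFac z.1 z.2 := by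
  unfold vFac
  refine Finset.measurable_sum _ fun σ _ => ((measurable_theta σ).comp measurable_fst).exp.mul
    (Finset.measurable_prod _ fun j _ => ?_)
  fun_prop

/-! ### The log partition function of a potential -/

variable (t : Trial)

/-- A potential of messages of `J` and spins of `N` sites. -/
abbrev Pot (J : Type) (N : ℕ) := (Fin t.r → J → ℝ) → (Fin N → Bool) → ℝ

/-- Regularity of a potential. -/
def RegPot {J : Type} (G : Pot t J N) (B : ℝ) : Prop :=
  (∀ σ, Measurable fun w => G w σ) ∧ ∀ w σ, |G w σ| ≤ B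

variable {J : Type} [Fintype J]

/-- `log 𝒯` of the spin average of `exp G`, with the outer variables fixed. -/
noncomputable def lpot (G : Pot t J N) : ℝ :=
  Real.log (collapse t.r t.m fun w => avg fun σ : Fin N → Bool => Real.exp (G w σ))

lemma avg_le_avg {α : Type} [Fintype α] {F G : α → ℝ} (h : ∀ a, F a ≤ G a) : avg F ≤ avg G :=
  div_le_div_of_nonneg_right (sum_le_sum fun a _ => h a) (Nat.cast_nonneg _)

lemma avg_exp_mem {G : (Fin N → Bool) → ℝ} {B : ℝ} (h : ∀ σ, |G σ| ≤ B) :
    avg (fun σ => Real.exp (G σ)) ∈ Set.Icc (Real.exp (-B)) (Real.exp B) := by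
  constructor
  · have := avg_le_avg (F := fun _ : Fin N → Bool => Real.exp (-B))
      fun σ => Real.exp_le_exp.2 (abs_le.1 (h σ)).1
    rwa [avg_const] at this
  · have := avg_le_avg (G := fun _ : Fin N → Bool => Real.exp B)
      fun σ => Real.exp_le_exp.2 (abs_le.1 (h σ)).2
    rwa [avg_const] at this

lemma measurable_avg {P : Type} [MeasurableSpace P] {α : Type} [Fintype α] {F : P → α → ℝ}
    (h : ∀ a, Measurable fun p => F p a) : Measurable fun p => avg (F p) := by
  unfold avg
  exact (Finset.measurable_sum _ fun a _ => h a).div_const _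

lemma abs_lpot_sub_le {G G' : Pot t J N} {B d : ℝ} (hG : RegPot t G B) (hG' : RegPot t G' B)
    (hd : 0 ≤ d) (h : ∀ w σ, |G w σ - G' w σ| ≤ d) : |lpot t G - lpot t G'| ≤ d := by
  refine abs_log_collapse_sub_le (B := B) (fun p => (t.m_mem p).1)
    (measurable_avg fun σ => (hG.1 σ).exp) (measurable_avg fun σ => (hG'.1 σ).exp)
    (fun w => avg_exp_mem (hG.2 w)) (fun w => avg_exp_mem (hG'.2 w)) hd fun w => ?_
  constructor <;> rw [← avg_const_mul] <;>
    exact avg_le_avg fun σ => by
      rw [← Real.exp_add]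
      exact Real.exp_le_exp.2 (by linarith [(abs_le.1 (h w σ)).1, (abs_le.1 (h w σ)).2])

lemma lpot_add_const {G : Pot t J N} (c : ℝ) (hG : ∃ B, RegPot t G B) :
    lpot t (fun w σ => G w σ + c) = lpot t G + c := by
  obtain ⟨B, hG⟩ := hG
  have hmem := collapse_mem (fun p => (t.m_mem p).1) (measurable_avg fun σ => (hG.1 σ).exp)
    (Real.exp_pos (-B)) fun w => avg_exp_mem (hG.2 w)
  have h : collapse t.r t.m (fun w => avg fun σ : Fin N → Bool => Real.exp (G w σ + c)) =
      Real.exp c * collapse t.r t.m fun w => avg fun σ : Fin N → Bool => Real.exp (G w σ) := by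
    rw [← collapse_const_mul (Real.exp_pos c).le (fun p => (t.m_mem p).1.ne')
      fun w => (Real.exp_pos _).le.trans (avg_exp_mem (hG.2 w)).1]
    congr 1
    funext w
    rw [← avg_const_mul]
    congr 1
    funext σ
    rw [Real.exp_add]; ring
  rw [lpot, lpot, h, Real.log_mul (Real.exp_pos c).ne' ((Real.exp_pos _).trans_le hmem.1).ne',
    Real.log_exp]
  ring

lemma lpot_zero : lpot t (fun (_ : Fin t.r → J → ℝ) (_ : Fin N → Bool) => (0 : ℝ)) = 0 := by
  simp only [lpot, Real.exp_zero, avg_const]
  rw [collapse_const zero_le_one fun p => (t.m_mem p).1.ne', Real.log_one]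

lemma abs_lpot_le {G : Pot t J N} {B : ℝ} (hG : RegPot t G B) (hB : 0 ≤ B) : |lpot t G| ≤ B := by
  have := abs_lpot_sub_le t hG (G' := fun _ _ => 0)
    ⟨fun σ => measurable_const, fun w σ => by simpa using hB⟩ hB
    (fun w σ => by simpa using hG.2 w σ)
  rwa [lpot_zero, sub_zero] at this

lemma measurable_lpot {P : Type} [MeasurableSpace P] {G : P → Pot t J N}
    (hG : ∀ σ, Measurable fun z : P × (Fin t.r → J → ℝ) => G z.1 z.2 σ) :
    Measurable fun p => lpot t (G p) :=
  (measurable_collapse t.m (Y := fun p w => avg fun σ : Fin N → Bool => Real.exp (G p w σ))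
    (measurable_avg fun σ => (hG σ).exp)).log

/-- The messages of `J` at given outer variables. -/
def msgs {J : Type} (ω0 : J → ℝ) (w : Fin t.r → J → ℝ) : J → ℝ := fun c => t.message ω0 w c

lemma abs_msgs_le {J : Type} (ω0 : J → ℝ) (w : Fin t.r → J → ℝ) (c : J) : |msgs t ω0 w c| ≤ 1 :=
  abs_le.2 (t.x_mem _)

lemma measurable_msgs {J : Type} :
    Measurable fun z : (J → ℝ) × (Fin t.r → J → ℝ) => msgs t z.1 z.2 := by
  refine measurable_pi_lambda _ fun c => t.x_meas.comp (measurable_pi_lambda _ fun i => ?_)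
  refine Fin.cases ?_ (fun i => ?_) i
  · exact (measurable_pi_apply c).comp measurable_fst
  · exact (measurable_pi_apply c).comp
      ((measurable_pi_apply (X := fun _ : Fin t.r => J → ℝ) i).comp measurable_snd)

/-! ### The combination of the increments -/

/-- One clause on old spins. -/
noncomputable def addCl (G : Pot t J N) (p : Param K) (i : Fin K → Fin N) : Pot t J N :=
  fun w σ => G w σ + theta p fun j => σ (i j)

/-- One cavity factor, with fresh messages. -/
noncomputable def addCav (G : Pot t J N) (p : Param K) (l : Fin K) (v : Fin N) (ω0 : Fin K → ℝ) :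
    Pot t (J ⊕ Fin K) N :=
  fun w σ => G (fun q j => w q (Sum.inl j)) σ +
    Real.log (gFac p l (σ v) (msgs t ω0 fun q j => w q (Sum.inr j)))

/-- One factor of `V`. -/
noncomputable def potOne (p : Param K) (ω0 : Fin K → ℝ) : Pot t (Fin K) 0 :=
  fun w _ => Real.log (vFac p (msgs t ω0 w))

/-- The combination. -/
noncomputable def combA (G : Pot t J N) (p : Param K) : ℝ :=
  avg (fun i : Fin K → Fin N => lpot t (addCl t G p i) - lpot t G) -
    (K : ℝ) * avg (fun lv : Fin K × Fin N =>
      ∫ ω0, (lpot t (addCav t G p lv.1 lv.2 ω0) - lpot t G) ∂unifLaw (Fin K)) +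
    ((K : ℝ) - 1) * ∫ ω0, lpot t (potOne t p ω0) ∂unifLaw (Fin K)

variable {t}

omit [Fintype J] in
lemma RegPot.addCl {G : Pot t J N} {B : ℝ} (hG : RegPot t G B) (p : Param K)
    (i : Fin K → Fin N) : RegPot t (addCl t G p i) (B + supTheta p) :=
  ⟨fun σ => (hG.1 σ).add_const _, fun w σ =>
    (abs_add_le _ _).trans (add_le_add (hG.2 w σ) (abs_theta_le _ _))⟩

omit [Fintype J] in
lemma RegPot.addCav {G : Pot t J N} {B : ℝ} (hG : RegPot t G B) (p : Param K) (l : Fin K)
    (v : Fin N) (ω0 : Fin K → ℝ) : RegPot t (addCav t G p l v ω0) (B + supTheta p) := by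
  refine ⟨fun σ => ?_, fun w σ => (abs_add_le _ _).trans
    (add_le_add (hG.2 _ σ) (abs_log_gFac_le p l _ (abs_msgs_le t _ _)))⟩
  refine ((hG.1 σ).comp ?_).add (Measurable.log ((measurable_gFac l (σ v)).comp
    (measurable_const.prodMk ((measurable_msgs t).comp (measurable_const.prodMk ?_)))))
  · fun_prop
  · fun_prop

lemma regPot_potOne (p : Param K) (ω0 : Fin K → ℝ) : RegPot t (potOne t p ω0) (supTheta p) :=
  ⟨fun _ => Measurable.log (measurable_vFac.comp (measurable_const.prodMk
    ((measurable_msgs t).comp (measurable_const.prodMk measurable_id)))),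
    fun _ _ => abs_log_vFac_le p (abs_msgs_le t _ _)⟩

lemma measurable_addCav_lpot {P : Type} [MeasurableSpace P] {G : P → Pot t J N}
    {q : P → Param K} {o : P → Fin K → ℝ}
    (hG : ∀ σ, Measurable fun z : P × (Fin t.r → J → ℝ) => G z.1 z.2 σ)
    (hq : Measurable q) (ho : Measurable o) (l : Fin K) (v : Fin N) :
    Measurable fun z => lpot t (addCav t (G z) (q z) l v (o z)) := by
  refine measurable_lpot t fun σ => ?_
  refine ((hG σ).comp (measurable_fst.prodMk ?_)).add (Measurable.log ((measurable_gFac l (σ v)).comp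
    ((hq.comp measurable_fst).prodMk ((measurable_msgs t).comp
      ((ho.comp measurable_fst).prodMk ?_)))))
  · fun_prop
  · fun_prop

lemma measurable_potOne_lpot {P : Type} [MeasurableSpace P] {q : P → Param K} {o : P → Fin K → ℝ}
    (hq : Measurable q) (ho : Measurable o) :
    Measurable fun z => lpot t (potOne t (q z) (o z)) :=
  measurable_lpot t fun _ => Measurable.log (measurable_vFac.comp
    ((hq.comp measurable_fst).prodMk ((measurable_msgs t).comp
      ((ho.comp measurable_fst).prodMk measurable_snd))))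

lemma integrable_addCav {G : Pot t J N} {B : ℝ} (hG : RegPot t G B) (p : Param K)
    (l : Fin K) (v : Fin N) :
    Integrable (fun ω0 => lpot t (addCav t G p l v ω0) - lpot t G) (unifLaw (Fin K)) := by
  refine (Integrable.of_bound ((measurable_addCav_lpot (G := fun _ => G) (q := fun _ => p)
    (o := id) (fun σ => (hG.1 σ).comp measurable_snd) measurable_const measurable_id
    l v).aestronglyMeasurable) (B + supTheta p) (.of_forall fun ω0 => ?_)).sub (integrable_const _)
  exact abs_lpot_le t (hG.addCav p l v ω0)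
    (add_nonneg ((abs_nonneg _).trans (hG.2 (fun _ _ => 0) fun _ => true)) (supTheta_nonneg p))

lemma integrable_potOne (p : Param K) :
    Integrable (fun ω0 => lpot t (potOne t p ω0)) (unifLaw (Fin K)) :=
  Integrable.of_bound ((measurable_potOne_lpot (q := fun _ => p) (o := id) measurable_const
    measurable_id).aestronglyMeasurable) (supTheta p)
    (.of_forall fun ω0 => abs_lpot_le t (regPot_potOne p ω0) (supTheta_nonneg p))

lemma abs_avg_le {α : Type} [Fintype α] [Nonempty α] {F : α → ℝ} {d : ℝ} (h : ∀ a, |F a| ≤ d) :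
    |avg F| ≤ d := by
  rw [abs_le]
  constructor
  · have := avg_le_avg (F := fun _ : α => -d) fun a => (abs_le.1 (h a)).1
    rwa [avg_const] at this
  · have := avg_le_avg (G := fun _ : α => d) fun a => (abs_le.1 (h a)).2
    rwa [avg_const] at this

lemma avg_sub {α : Type} [Fintype α] (F G : α → ℝ) :
    avg F - avg G = avg fun a => F a - G a := by
  simp [avg, sum_sub_distrib, sub_div]

/-- The combination is Lipschitz in `θ`. -/
lemma abs_combA_sub_le {G : Pot t J N} {B : ℝ} (hG : RegPot t G B) (hK : 1 ≤ K) (hN : 0 < N)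
    {p p' : Param K} {d : ℝ} (hd0 : 0 ≤ d) (hd : ∀ σ, |theta p σ - theta p' σ| ≤ d) :
    |combA t G p - combA t G p'| ≤ 2 * K * d := by
  have : Nonempty (Fin N) := ⟨⟨0, hN⟩⟩
  have : Nonempty (Fin K) := ⟨⟨0, hK⟩⟩
  set B' := B + max (supTheta p) (supTheta p') with hB'
  have hle : ∀ {G' : Pot t (J ⊕ Fin K) N} {q : Param K}, supTheta q ≤ max (supTheta p) (supTheta p') →
      RegPot t G' (B + supTheta q) → RegPot t G' B' := fun hq h =>
    ⟨h.1, fun w σ => (h.2 w σ).trans (by linarith)⟩
  have hle' : ∀ {G' : Pot t J N} {q : Param K}, supTheta q ≤ max (supTheta p) (supTheta p') →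
      RegPot t G' (B + supTheta q) → RegPot t G' B' := fun hq h =>
    ⟨h.1, fun w σ => (h.2 w σ).trans (by linarith)⟩
  have hone : ∀ (q : Param K) ω0, supTheta q ≤ max (supTheta p) (supTheta p') →
      RegPot t (potOne t q ω0) (max (supTheta p) (supTheta p')) := fun q ω0 hq =>
    ⟨(regPot_potOne q ω0).1, fun w σ => ((regPot_potOne q ω0).2 w σ).trans hq⟩
  have h1 : |avg (fun i : Fin K → Fin N => lpot t (addCl t G p i) - lpot t G) -
      avg (fun i : Fin K → Fin N => lpot t (addCl t G p' i) - lpot t G)| ≤ d := by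
    rw [avg_sub]
    refine abs_avg_le fun i => ?_
    rw [sub_sub_sub_cancel_right]
    exact abs_lpot_sub_le t (hle' (le_max_left _ _) (hG.addCl p i))
      (hle' (le_max_right _ _) (hG.addCl p' i)) hd0 fun w σ => by
        simp only [addCl, add_sub_add_left_eq_sub]
        exact hd _
  have hint : ∀ {F F' : (Fin K → ℝ) → ℝ}, Integrable F (unifLaw (Fin K)) →
      Integrable F' (unifLaw (Fin K)) → (∀ ω, |F ω - F' ω| ≤ d) →
      |(∫ ω, F ω ∂unifLaw (Fin K)) - ∫ ω, F' ω ∂unifLaw (Fin K)| ≤ d := by
    intro F F' hF hF' h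
    rw [← integral_sub hF hF']
    refine (abs_integral_le_integral_abs).trans ?_
    have := integral_mono (hF.sub hF').abs (integrable_const d) h
    simpa using this
  have h2 : |avg (fun lv : Fin K × Fin N =>
        ∫ ω0, (lpot t (addCav t G p lv.1 lv.2 ω0) - lpot t G) ∂unifLaw (Fin K)) -
      avg (fun lv : Fin K × Fin N =>
        ∫ ω0, (lpot t (addCav t G p' lv.1 lv.2 ω0) - lpot t G) ∂unifLaw (Fin K))| ≤ d := by
    rw [avg_sub]
    refine abs_avg_le fun lv => hint (integrable_addCav hG p _ _) (integrable_addCav hG p' _ _)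
      fun ω0 => ?_
    rw [sub_sub_sub_cancel_right]
    exact abs_lpot_sub_le t (hle (le_max_left _ _) (hG.addCav p _ _ ω0))
      (hle (le_max_right _ _) (hG.addCav p' _ _ ω0)) hd0 fun w σ => by
        simp only [addCav, add_sub_add_left_eq_sub]
        exact abs_log_gFac_sub_le hd _ _ (abs_msgs_le t _ _)
  have h3 : |(∫ ω0, lpot t (potOne t p ω0) ∂unifLaw (Fin K)) -
      ∫ ω0, lpot t (potOne t p' ω0) ∂unifLaw (Fin K)| ≤ d :=
    hint (integrable_potOne p) (integrable_potOne p') fun ω0 =>
      abs_lpot_sub_le t (hone p ω0 (le_max_left _ _)) (hone p' ω0 (le_max_right _ _)) hd0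
        fun w σ => abs_log_vFac_sub_le hd (abs_msgs_le t _ _)
  have hK' : (1 : ℝ) ≤ K := by exact_mod_cast hK
  obtain ⟨a1, a2⟩ := abs_le.1 h1
  obtain ⟨b1, b2⟩ := abs_le.1 h2
  obtain ⟨c1, c2⟩ := abs_le.1 h3
  have hK0 : (0 : ℝ) ≤ (K : ℝ) - 1 := by linarith
  have m1 := mul_le_mul_of_nonneg_left b1 (zero_le_one.trans hK')
  have m2 := mul_le_mul_of_nonneg_left b2 (zero_le_one.trans hK')
  have n1 := mul_le_mul_of_nonneg_left c1 hK0
  have n2 := mul_le_mul_of_nonneg_left c2 hK0
  simp only [combA]
  rw [abs_le]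
  constructor <;> linarith

lemma combA_nullP {G : Pot t J N} (hG : ∀ l v ω0, lpot t (addCav t G (nullP : Param K) l v ω0) =
    lpot t G) : combA t G (nullP : Param K) = 0 := by
  have h1 : ∀ i : Fin K → Fin N, addCl t G nullP i = G := fun i => by
    funext w σ; simp [addCl, theta_nullP]
  have h3 : ∀ ω0, lpot t (potOne t (nullP : Param K) ω0) = 0 := fun ω0 => by
    rw [show potOne t (nullP : Param K) ω0 = fun _ _ => 0 from funext fun w => funext fun σ =>
      log_vFac_nullP _, lpot_zero]
  simp [combA, avg, h1, h3, hG]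

lemma measurable_combA {G : Pot t J N} {B : ℝ} (hG : RegPot t G B) :
    Measurable fun p : Param K => combA t G p := by
  have h1 : ∀ i : Fin K → Fin N, Measurable fun p : Param K => lpot t (addCl t G p i) - lpot t G :=
    fun i => (measurable_lpot t fun σ => ((hG.1 σ).comp measurable_snd).add
      ((measurable_theta _).comp measurable_fst)).sub_const _
  have h2 : ∀ lv : Fin K × Fin N, Measurable fun p : Param K =>
      ∫ ω0, (lpot t (addCav t G p lv.1 lv.2 ω0) - lpot t G) ∂unifLaw (Fin K) := fun lv =>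
    (StronglyMeasurable.integral_prod_right' (f := fun z : Param K × (Fin K → ℝ) =>
      lpot t (addCav t G z.1 lv.1 lv.2 z.2) - lpot t G)
      ((measurable_addCav_lpot (G := fun _ => G) (fun σ => (hG.1 σ).comp measurable_snd)
        measurable_fst measurable_snd lv.1 lv.2).sub_const _).stronglyMeasurable).measurable
  have h3 : Measurable fun p : Param K => ∫ ω0, lpot t (potOne t p ω0) ∂unifLaw (Fin K) :=
    (StronglyMeasurable.integral_prod_right' (f := fun z : Param K × (Fin K → ℝ) =>
      lpot t (potOne t z.1 z.2))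
      (measurable_potOne_lpot measurable_fst measurable_snd).stronglyMeasurable).measurable
  exact ((measurable_avg h1).sub ((measurable_avg h2).const_mul _)).add (h3.const_mul _)

end Vale.Agent.P168.Up
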