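import Vale.Agent.P168.Upper.Endpoints

/-!
The upper bound: the pressure is at most every value of the trial functional.
-/

namespace Vale.Agent.P168

open MeasureTheory Finset P168.Poisson Up

/-- Interpolation bound: `F_N ≤ 𝒯 U − 𝒯 V` for every trial and every positive `N`. -/
theorem pressure_le_trial {M : Model} (hM : M.Valid) (t : Trial) {N : ℕ} (hN : 0 < N) :
    pressure M N ≤ trialU M t - trialV M t := by
  have := hM.h_prob
  have := hM.clause_prob
  set W := meanW t M N with hW
  set S := ∫ p, supTheta p ∂M.clauseLaw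
  set v := vOne t M
  set a := ((M.K : ℝ) - 1) * v
  have hS : 0 ≤ S := integral_nonneg fun p => supTheta_nonneg p
  have hK : (0 : ℝ) ≤ M.K := Nat.cast_nonneg _
  have hN' : (0 : ℝ) < N := Nat.cast_pos.2 hN
  have hm : ∀ m, |W m 0 - W 0 0| ≤ S * m := by
    intro m
    induction m with
    | zero => simp
    | succ m ih =>
      have h := (abs_le.1 (abs_meanW_succ_le t hM hN m 0).1)
      have h' := abs_le.1 ih
      push_cast
      rw [abs_le]; constructor <;> linarith [h.1, h.2, h'.1, h'.2]
  have hlin : ∀ m n, |W m n - W 0 0| ≤ S * (m + n) := by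
    intro m n
    induction n with
    | zero => simpa using hm m
    | succ n ih =>
      have h := (abs_le.1 (abs_meanW_succ_le t hM hN m n).2)
      have h' := abs_le.1 ih
      push_cast
      rw [abs_le]; constructor <;> linarith [h.1, h.2, h'.1, h'.2]
  let g : ℕ → ℕ → ℝ := fun m n => W m n + m * a
  have hg : Gr2 g := by
    refine Gr2.of_linear (C := |W 0 0| + S + |a|) fun m n => ?_
    have h := abs_le.1 (hlin m n)
    have hm0 : (0 : ℝ) ≤ m := Nat.cast_nonneg _
    have hn0 : (0 : ℝ) ≤ n := Nat.cast_nonneg _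
    have p1 := mul_nonneg (abs_nonneg (W 0 0)) (add_nonneg hm0 hn0)
    have p2 := mul_nonneg hm0 (sub_nonneg.2 (le_abs_self a))
    have p3 := mul_nonneg hm0 (sub_nonneg.2 (neg_abs_le a))
    have p4 := mul_nonneg hn0 (abs_nonneg a)
    simp only [g]
    rw [abs_le]
    constructor <;> linarith [h.1, h.2, le_abs_self (W 0 0), neg_abs_le (W 0 0), abs_nonneg a]
  have key := pe_interpolation (C := S + |a|) (κ := (M.K : ℝ)) (T := M.lam * N) hK
    (mul_nonneg hM.lam_pos.le hN'.le) hg
    (fun m n => by
      have h := abs_le.1 (abs_meanW_succ_le t hM hN m n).1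
      simp only [g]; push_cast
      rw [abs_le]; constructor <;> linarith [h.1, h.2, le_abs_self a, neg_abs_le a])
    (fun m n => by
      have h := (abs_meanW_succ_le t hM hN m n).2
      simp only [g, add_sub_add_right_eq_sub]
      exact h.trans (le_add_of_nonneg_right (abs_nonneg a)))
    (fun m n => by
      have h := meanW_step t hM hN m n
      simp only [g, add_sub_add_right_eq_sub]; push_cast
      linarith)
  have hgrW : Gr fun m => W m 0 := by
    refine Gr.of_linear (C := |W 0 0| + S) fun m => ?_
    have h := abs_le.1 (hm m)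
    have hm0 : (0 : ℝ) ≤ m := Nat.cast_nonneg _
    have p1 := mul_nonneg (abs_nonneg (W 0 0)) hm0
    rw [abs_le]
    constructor <;> linarith [h.1, h.2, le_abs_self (W 0 0), neg_abs_le (W 0 0)]
  have hgrU : Gr fun m => siteU t M m := by
    refine Gr.of_linear (C := (∫ h, |h| ∂M.hLaw) + S) fun m => (abs_siteU_le t hM m).trans ?_
    have hH : 0 ≤ ∫ h, |h| ∂M.hLaw := integral_nonneg fun h => abs_nonneg h
    linarith [mul_nonneg hH (Nat.cast_nonneg m : (0:ℝ) ≤ m)]
  have eL : pe (M.lam * N) (fun m => g m 0) = pe (M.lam * N) (fun m => W m 0) + M.lam * N * a := by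
    rw [show (fun m : ℕ => g m 0) = fun m : ℕ => W m 0 + a * m from funext fun m => by
        simp only [g]; ring,
      pe_add hgrW (Gr.natCast.smul a), pe_smul, pe_natCast]
    ring
  have eR : pe (M.K * (M.lam * N)) (g 0) = N * pe (M.K * M.lam) (fun m => siteU t M m) := by
    rw [show g 0 = fun n : ℕ => (N : ℝ) * binom2 (1 / N) n (fun m _ => siteU t M m) from
        funext fun n => by simp [g, hW, meanW_zero t hM hN n],
      pe_smul, pe_thinning_fst hgrU]
    congr 2
    field_simp
  rw [eL, eR] at key
  have eP : pressure M N = (pe (M.lam * N) (fun m => W m 0) + N * Real.log 2) / N := by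
    rw [← pe_const (M.lam * N) ((N : ℝ) * Real.log 2), ← pe_add hgrW (Gr.const _)]
    exact congrArg (· / (N : ℝ)) (tsum_congr fun k => congrArg _ (press_eq t hM hN k))
  have eU : trialU M t = pe (M.K * M.lam) (fun m => siteU t M m) + Real.log 2 := by
    rw [← pe_const (M.K * M.lam) (Real.log 2), ← pe_add hgrU (Gr.const _)]
    exact tsum_congr fun k => congrArg _ (siteU_eq t hM k)
  have eV : trialV M t = ((M.K : ℝ) - 1) * M.lam * v := by
    rw [← pe_natCast (((M.K : ℝ) - 1) * M.lam), mul_comm _ v, ← pe_smul]
    exact tsum_congr fun k => congrArg _ ((vSum_eq t hM k).trans (mul_comm _ _))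
  rw [eP, eU, eV, div_le_iff₀ hN']
  simp only [a] at key
  linarith

end Vale.Agent.P168
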